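import Mathlib

/-!
# Importance sampling of coordinates (finite Chernoff bound in existence form)
-/

namespace Vale.Agent.Lib.P249

open Finset

/-- Multiplicative Chernoff bound, as an existence statement for a finite product distribution. -/
theorem exists_good_sample {K P : Type*} [Fintype K] (π : K → ℝ) (hπ0 : ∀ k, 0 ≤ π k)
    (hπ1 : ∑ k, π k = 1) (Q : Finset P) (W : P → K → ℝ) (hW0 : ∀ q ∈ Q, ∀ k, 0 ≤ W q k)
    (hW1 : ∀ q ∈ Q, ∀ k, W q k ≤ 1) (θ : ℝ) (hmean : ∀ q ∈ Q, ∑ k, π k * W q k = θ)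
    (ε : ℝ) (hε0 : 0 < ε) (hε1 : ε ≤ 1) (d : ℕ)
    (hd : 2 * (Q.card : ℝ) * Real.exp (-(d * θ * ε ^ 2 / 4)) < 1) :
    ∃ κ : Fin d → K, ∀ q ∈ Q,
      (1 - ε) * (d * θ) < ∑ r, W q (κ r) ∧ ∑ r, W q (κ r) < (1 + ε) * (d * θ) := by
  classical
  have hexp : ∀ x : ℝ, |x| ≤ 1 → Real.exp x ≤ 1 + x + x ^ 2 := by
    intro x hx
    have := (abs_le.mp (Real.abs_exp_sub_one_sub_id_le hx)).2
    linarith
  have hmgf : ∀ μ : ℝ, |μ| ≤ 1 → ∀ q ∈ Q,
      ∑ k, π k * Real.exp (μ * W q k) ≤ Real.exp (θ * (μ + μ ^ 2)) := by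
    intro μ hμ q hq
    have h1 : ∀ k, π k * Real.exp (μ * W q k) ≤ π k + (μ + μ ^ 2) * (π k * W q k) := by
      intro k
      have hw0 := hW0 q hq k
      have hw1 := hW1 q hq k
      have hx : |μ * W q k| ≤ 1 := by
        rw [abs_mul, abs_of_nonneg hw0]
        calc |μ| * W q k ≤ 1 * 1 := mul_le_mul hμ hw1 hw0 zero_le_one
          _ = 1 := by norm_num
      have h2 := hexp _ hx
      have h3 : (μ * W q k) ^ 2 ≤ μ ^ 2 * W q k := by
        have h5 : W q k ^ 2 ≤ W q k := by nlinarith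
        calc (μ * W q k) ^ 2 = μ ^ 2 * W q k ^ 2 := by ring
          _ ≤ μ ^ 2 * W q k := mul_le_mul_of_nonneg_left h5 (sq_nonneg _)
      have h4 : Real.exp (μ * W q k) ≤ 1 + (μ + μ ^ 2) * W q k := by nlinarith
      calc π k * Real.exp (μ * W q k) ≤ π k * (1 + (μ + μ ^ 2) * W q k) :=
            mul_le_mul_of_nonneg_left h4 (hπ0 k)
        _ = _ := by ring
    calc ∑ k, π k * Real.exp (μ * W q k) ≤ ∑ k, (π k + (μ + μ ^ 2) * (π k * W q k)) :=
          sum_le_sum (fun k _ => h1 k)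
      _ = 1 + (μ + μ ^ 2) * θ := by rw [sum_add_distrib, ← mul_sum, hπ1, hmean q hq]
      _ ≤ Real.exp (θ * (μ + μ ^ 2)) := by
          have := Real.add_one_le_exp (θ * (μ + μ ^ 2)); linarith
  have hprod : ∀ μ : ℝ, |μ| ≤ 1 → ∀ q ∈ Q,
      ∑ κ : Fin d → K, (∏ r, π (κ r)) * Real.exp (μ * ∑ r, W q (κ r)) ≤
        Real.exp (d * (θ * (μ + μ ^ 2))) := by
    intro μ hμ q hq
    have h1 : ∀ κ : Fin d → K, (∏ r, π (κ r)) * Real.exp (μ * ∑ r, W q (κ r)) =
        ∏ r, (π (κ r) * Real.exp (μ * W q (κ r))) := by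
      intro κ
      rw [mul_sum, Real.exp_sum, prod_mul_distrib]
    simp_rw [h1]
    rw [← Fintype.sum_pow (fun k => π k * Real.exp (μ * W q k)) d]
    calc (∑ k, π k * Real.exp (μ * W q k)) ^ d ≤ (Real.exp (θ * (μ + μ ^ 2))) ^ d := by
            apply pow_le_pow_left₀ _ (hmgf μ hμ q hq)
            exact sum_nonneg (fun k _ => mul_nonneg (hπ0 k) (Real.exp_pos _).le)
      _ = _ := by rw [← Real.exp_nat_mul]
  have hone : ∑ κ : Fin d → K, (∏ r, π (κ r)) = 1 := by
    rw [← Fintype.sum_pow π d, hπ1, one_pow]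
  -- the potential
  set lam : ℝ := ε / 2 with hlam
  have hlam1 : |lam| ≤ 1 := by rw [abs_of_pos (by positivity)]; linarith
  have hlam2 : |-lam| ≤ 1 := by rw [abs_neg]; exact hlam1
  set Φ : (Fin d → K) → ℝ := fun κ => ∑ q ∈ Q,
    (Real.exp (lam * ∑ r, W q (κ r)) * Real.exp (-(lam * (1 + ε) * (d * θ))) +
     Real.exp (-lam * ∑ r, W q (κ r)) * Real.exp (lam * (1 - ε) * (d * θ))) with hΦ
  have hsum : ∑ κ : Fin d → K, (∏ r, π (κ r)) * Φ κ < ∑ κ : Fin d → K, (∏ r, π (κ r)) := by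
    rw [hone]
    have h1 : ∑ κ : Fin d → K, (∏ r, π (κ r)) * Φ κ = ∑ q ∈ Q,
        ((∑ κ : Fin d → K, (∏ r, π (κ r)) * Real.exp (lam * ∑ r, W q (κ r))) *
            Real.exp (-(lam * (1 + ε) * (d * θ))) +
         (∑ κ : Fin d → K, (∏ r, π (κ r)) * Real.exp (-lam * ∑ r, W q (κ r))) *
            Real.exp (lam * (1 - ε) * (d * θ))) := by
      simp only [hΦ, mul_sum]
      rw [sum_comm]
      apply sum_congr rfl
      intro q _
      rw [sum_mul, sum_mul, ← sum_add_distrib]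
      apply sum_congr rfl
      intro κ _
      ring
    rw [h1]
    have h2 : ∀ q ∈ Q,
        ((∑ κ : Fin d → K, (∏ r, π (κ r)) * Real.exp (lam * ∑ r, W q (κ r))) *
            Real.exp (-(lam * (1 + ε) * (d * θ))) +
         (∑ κ : Fin d → K, (∏ r, π (κ r)) * Real.exp (-lam * ∑ r, W q (κ r))) *
            Real.exp (lam * (1 - ε) * (d * θ))) ≤ 2 * Real.exp (-(d * θ * ε ^ 2 / 4)) := by
      intro q hq
      have ha := hprod lam hlam1 q hq
      have hb := hprod (-lam) hlam2 q hq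
      have ha' : (∑ κ : Fin d → K, (∏ r, π (κ r)) * Real.exp (lam * ∑ r, W q (κ r))) *
            Real.exp (-(lam * (1 + ε) * (d * θ))) ≤ Real.exp (-(d * θ * ε ^ 2 / 4)) := by
        calc _ ≤ Real.exp (d * (θ * (lam + lam ^ 2))) * Real.exp (-(lam * (1 + ε) * (d * θ))) :=
              mul_le_mul_of_nonneg_right ha (Real.exp_pos _).le
          _ = Real.exp (-(d * θ * ε ^ 2 / 4)) := by
              rw [← Real.exp_add]; congr 1; rw [hlam]; ring
      have hb' : (∑ κ : Fin d → K, (∏ r, π (κ r)) * Real.exp (-lam * ∑ r, W q (κ r))) *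
            Real.exp (lam * (1 - ε) * (d * θ)) ≤ Real.exp (-(d * θ * ε ^ 2 / 4)) := by
        calc _ ≤ Real.exp (d * (θ * (-lam + (-lam) ^ 2))) * Real.exp (lam * (1 - ε) * (d * θ)) :=
              mul_le_mul_of_nonneg_right hb (Real.exp_pos _).le
          _ = Real.exp (-(d * θ * ε ^ 2 / 4)) := by
              rw [← Real.exp_add]; congr 1; rw [hlam]; ring
      linarith
    calc _ ≤ ∑ q ∈ Q, 2 * Real.exp (-(d * θ * ε ^ 2 / 4)) := sum_le_sum h2
      _ = 2 * (Q.card : ℝ) * Real.exp (-(d * θ * ε ^ 2 / 4)) := by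
          rw [sum_const, nsmul_eq_mul]; ring
      _ < 1 := hd
  obtain ⟨κ, _, hκ⟩ := exists_lt_of_sum_lt hsum
  have hω0 : 0 ≤ ∏ r, π (κ r) := prod_nonneg (fun r _ => hπ0 _)
  have hΦ0 : 0 ≤ Φ κ := by
    simp only [hΦ]
    exact sum_nonneg (fun q _ => by positivity)
  have hωpos : 0 < ∏ r, π (κ r) := by
    rcases hω0.lt_or_eq with h | h
    · exact h
    · rw [← h] at hκ; simp at hκ
  have hΦ1 : Φ κ < 1 := by
    by_contra hcon
    push Not at hcon
    nlinarith
  refine ⟨κ, fun q hq => ?_⟩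
  have hterm : Real.exp (lam * ∑ r, W q (κ r)) * Real.exp (-(lam * (1 + ε) * (d * θ))) +
     Real.exp (-lam * ∑ r, W q (κ r)) * Real.exp (lam * (1 - ε) * (d * θ)) < 1 := by
    refine lt_of_le_of_lt ?_ hΦ1
    simp only [hΦ]
    exact single_le_sum (f := fun q => Real.exp (lam * ∑ r, W q (κ r)) *
      Real.exp (-(lam * (1 + ε) * (d * θ))) +
      Real.exp (-lam * ∑ r, W q (κ r)) * Real.exp (lam * (1 - ε) * (d * θ)))
      (fun q _ => by positivity) hq
  have hlampos : 0 < lam := by positivity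
  constructor
  · have h1 : Real.exp (-lam * ∑ r, W q (κ r)) * Real.exp (lam * (1 - ε) * (d * θ)) < 1 := by
      have : 0 < Real.exp (lam * ∑ r, W q (κ r)) * Real.exp (-(lam * (1 + ε) * (d * θ))) := by
        positivity
      linarith
    rw [← Real.exp_add, Real.exp_lt_one_iff] at h1
    have h2 : lam * ((1 - ε) * (d * θ) - ∑ r, W q (κ r)) < 0 := by nlinarith
    have h3 := (mul_neg_iff.mp h2)
    rcases h3 with h3 | h3
    · linarith [h3.2]
    · linarith [h3.1]
  · have h1 : Real.exp (lam * ∑ r, W q (κ r)) * Real.exp (-(lam * (1 + ε) * (d * θ))) < 1 := by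
      have : 0 < Real.exp (-lam * ∑ r, W q (κ r)) * Real.exp (lam * (1 - ε) * (d * θ)) := by
        positivity
      linarith
    rw [← Real.exp_add, Real.exp_lt_one_iff] at h1
    have h2 : lam * (∑ r, W q (κ r) - (1 + ε) * (d * θ)) < 0 := by nlinarith
    have h3 := (mul_neg_iff.mp h2)
    rcases h3 with h3 | h3
    · linarith [h3.2]
    · linarith [h3.1]


/-- Sensitivity sampling: if `a q k ≤ s k * ∑ k', a q k'` for all tests `q`, then about
`(∑ s) log |P| / ε ^ 2` weighted coordinates preserve all the sums `∑ k, a q k` up to `1 ± ε`. -/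
theorem exists_weighted_subsample {K P : Type*} [Fintype K] [Fintype P]
    (a : P → K → ℝ) (s : K → ℝ) (ha : ∀ q k, 0 ≤ a q k) (hs : ∀ k, 0 ≤ s k)
    (hbound : ∀ q k, a q k ≤ s k * ∑ k', a q k') (hSpos : 0 < ∑ k, s k)
    (ε : ℝ) (hε0 : 0 < ε) (hε1 : ε ≤ 1) (d : ℕ)
    (hd : 2 * (Fintype.card P : ℝ) * Real.exp (-(d * ε ^ 2 / (4 * ∑ k, s k))) < 1) :
    ∃ (κ : Fin d → K) (c : Fin d → ℝ), (∀ r, 0 ≤ c r) ∧ ∀ q,
      (1 - ε) * ∑ k, a q k ≤ ∑ r, c r * a q (κ r) ∧
      ∑ r, c r * a q (κ r) ≤ (1 + ε) * ∑ k, a q k := by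
  classical
  set S : ℝ := ∑ k, s k with hS
  have hA0 : ∀ q, 0 ≤ ∑ k, a q k := fun q => sum_nonneg (fun k _ => ha q k)
  set Q : Finset P := univ.filter (fun q => 0 < ∑ k, a q k) with hQ
  have hQmem : ∀ q, q ∈ Q ↔ 0 < ∑ k, a q k := by intro q; simp [hQ]
  have hgood := exists_good_sample (fun k => s k / S) (fun k => div_nonneg (hs k) hSpos.le)
    (by rw [← sum_div, div_self hSpos.ne']) Q (fun q k => a q k / (s k * ∑ k', a q k'))
    (fun q _ k => div_nonneg (ha q k) (mul_nonneg (hs k) (hA0 q)))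
    (fun q _ k => div_le_one_of_le₀ (hbound q k) (mul_nonneg (hs k) (hA0 q)))
    (1 / S) ?_ ε hε0 hε1 d ?_
  · obtain ⟨κ, hκ⟩ := hgood
    refine ⟨κ, fun r => S / (d * s (κ r)), fun r => div_nonneg hSpos.le
      (mul_nonneg (Nat.cast_nonneg _) (hs _)), fun q => ?_⟩
    by_cases hq : q ∈ Q
    · have hApos := (hQmem q).mp hq
      obtain ⟨h1, h2⟩ := hκ q hq
      have hdpos : 0 < d := by
        rcases Nat.eq_zero_or_pos d with h0 | h0
        · subst h0
          simp at h1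
        · exact h0
      have hdR : (0 : ℝ) < d := by exact_mod_cast hdpos
      have hid : ∑ r, S / (d * s (κ r)) * a q (κ r) =
          (S * (∑ k, a q k) / d) * ∑ r, a q (κ r) / (s (κ r) * ∑ k', a q k') := by
        rw [mul_sum]
        apply sum_congr rfl
        intro r _
        by_cases hsr : s (κ r) = 0
        · simp [hsr]
        · field_simp
      rw [hid]
      have hc : 0 < S * (∑ k, a q k) / d := by positivity
      constructor
      · calc (1 - ε) * ∑ k, a q k = (S * (∑ k, a q k) / d) * ((1 - ε) * (d * (1 / S))) := by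
              field_simp
          _ ≤ _ := mul_le_mul_of_nonneg_left h1.le hc.le
      · calc _ ≤ (S * (∑ k, a q k) / d) * ((1 + ε) * (d * (1 / S))) :=
              mul_le_mul_of_nonneg_left h2.le hc.le
          _ = (1 + ε) * ∑ k, a q k := by field_simp
    · have hA : ∑ k, a q k = 0 := by
        have := (hQmem q).not.mp hq
        exact le_antisymm (not_lt.mp this) (hA0 q)
      have hall : ∀ k, a q k = 0 := by
        intro k
        exact (sum_eq_zero_iff_of_nonneg (fun k _ => ha q k)).mp hA k (mem_univ k)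
      simp [hall]
  · intro q hq
    have hApos := (hQmem q).mp hq
    have h1 : ∀ k, s k / S * (a q k / (s k * ∑ k', a q k')) = a q k / (S * ∑ k', a q k') := by
      intro k
      by_cases hsk : s k = 0
      · have h0 : a q k = 0 := by
          have := hbound q k
          rw [hsk, zero_mul] at this
          exact le_antisymm this (ha q k)
        simp [hsk, h0]
      · field_simp
    simp_rw [h1]
    rw [← sum_div]
    field_simp
  · have hcard : (Q.card : ℝ) ≤ Fintype.card P := by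
      exact_mod_cast Finset.card_le_univ Q
    have he : (d : ℝ) * (1 / S) * ε ^ 2 / 4 = d * ε ^ 2 / (4 * S) := by
      field_simp
    rw [he]
    refine lt_of_le_of_lt ?_ hd
    have := (Real.exp_pos (-(d * ε ^ 2 / (4 * S)))).le
    nlinarith

end Vale.Agent.Lib.P249
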