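import Mathlib

/-!
# Sparse dominating sets of pairs (greedy spanners) in finite weighted complete graphs

Purely combinatorial part of the dimension reduction argument.
-/

namespace Vale.Agent.Lib.P249

variable {V : Type*}

/-- `Reach G k u v`: there is a `G`-walk from `u` to `v` with at most `k` steps. -/
inductive Reach (G : V → V → Prop) : ℕ → V → V → Prop
  | refl (k : ℕ) (u : V) : Reach G k u u
  | step {k : ℕ} {u v w : V} : G u v → Reach G k v w → Reach G (k + 1) u w

lemma Reach.mono {G G' : V → V → Prop} (h : ∀ u v, G u v → G' u v) {k : ℕ} {u v : V}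
    (hr : Reach G k u v) : Reach G' k u v := by
  induction hr with
  | refl k u => exact Reach.refl k u
  | step hG _ ih => exact Reach.step (h _ _ hG) ih

lemma Reach.mono_len {G : V → V → Prop} {k k' : ℕ} {u v : V}
    (hr : Reach G k u v) (hk : k ≤ k') : Reach G k' u v := by
  induction hr generalizing k' with
  | refl k u => exact Reach.refl k' u
  | step hG _ ih =>
    obtain ⟨k'', rfl⟩ : ∃ k'', k' = k'' + 1 := ⟨k' - 1, by omega⟩
    exact Reach.step hG (ih (by omega))

lemma Reach.trans {G : V → V → Prop} {k k' : ℕ} {u v w : V}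
    (h1 : Reach G k u v) (h2 : Reach G k' v w) : Reach G (k + k') u w := by
  induction h1 with
  | refl k u => exact h2.mono_len (by omega)
  | step hG _ ih =>
    exact (Reach.step hG (ih h2)).mono_len (by omega)

lemma Reach.symm {G : V → V → Prop} (hs : ∀ u v, G u v → G v u) {k : ℕ} {u v : V}
    (h : Reach G k u v) : Reach G k v u := by
  induction h with
  | refl k u => exact Reach.refl k u
  | step hG _ ih =>
    exact ih.trans (Reach.step (hs _ _ hG) (Reach.refl 0 _))

lemma reach_of_seg {G : V → V → Prop} (c : ℕ → V) (s : ℕ) :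
    ∀ len : ℕ, (∀ i, s ≤ i → i < s + len → G (c i) (c (i + 1))) →
      Reach G len (c s) (c (s + len)) := by
  intro len
  induction len with
  | zero => intro _; exact Reach.refl 0 _
  | succ len ih =>
    intro h
    have h1 : Reach G len (c s) (c (s + len)) := ih (fun i hi hi' => h i hi (by omega))
    have h2 : G (c (s + len)) (c (s + len + 1)) := h (s + len) (by omega) (by omega)
    exact h1.trans (Reach.step h2 (Reach.refl 0 _))

lemma Reach.abs_sub_le {G : V → V → Prop} {k : ℕ} {a b : V} (h : Reach G k a b)
    (f : V → ℝ) (M : ℝ) (hM : 0 ≤ M) (hf : ∀ u v, G u v → |f u - f v| ≤ M) :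
    |f a - f b| ≤ k * M := by
  induction h with
  | refl k u => simp; positivity
  | @step k u v w hG _ ih =>
    have h1 : |f u - f w| ≤ |f u - f v| + |f v - f w| := _root_.abs_sub_le _ _ _
    have h2 := hf _ _ hG
    push_cast
    nlinarith

/-- No closed walk of length between `1` and `2 t` that never turns back at an inner position. -/
def NoShort (G : V → V → Prop) (t : ℕ) : Prop :=
  ∀ (c : ℕ → V) (L : ℕ), 1 ≤ L → L ≤ 2 * t → c 0 = c L →
    (∀ i, i < L → G (c i) (c (i + 1))) → (∀ i, i + 2 ≤ L → c i ≠ c (i + 2)) → False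

lemma NoShort.mono {G G' : V → V → Prop} {t : ℕ} (h : ∀ u v, G' u v → G u v)
    (hG : NoShort G t) : NoShort G' t := by
  intro c L h1 h2 h3 h4 h5
  exact hG c L h1 h2 h3 (fun i hi => h _ _ (h4 i hi)) h5

lemma NoShort.add_edge {G : V → V → Prop} {t : ℕ} {a b : V} (hG : NoShort G t)
    (hsymm : ∀ u v, G u v → G v u) (hab : a ≠ b) (hreach : ¬ Reach G (2 * t - 1) a b) :
    NoShort (fun u v => G u v ∨ (u = a ∧ v = b) ∨ (u = b ∧ v = a)) t := by
  classical
  intro c L hL1 hL2 hclosed hadj hnb
  have hreach' : ∀ k, k ≤ 2 * t - 1 → ∀ u v, ((u = a ∧ v = b) ∨ (u = b ∧ v = a)) →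
      ¬ Reach G k u v := by
    intro k hk u v huv hr
    rcases huv with ⟨rfl, rfl⟩ | ⟨rfl, rfl⟩
    · exact hreach (hr.mono_len hk)
    · exact hreach ((hr.symm hsymm).mono_len hk)
  by_cases h1 : ∃ i, i < L ∧ ((c i = a ∧ c (i + 1) = b) ∨ (c i = b ∧ c (i + 1) = a))
  · obtain ⟨hiL, hinew⟩ := Nat.find_spec h1
    have hmin : ∀ j, j < Nat.find h1 →
        ¬ (j < L ∧ ((c j = a ∧ c (j + 1) = b) ∨ (c j = b ∧ c (j + 1) = a))) :=
      fun j hj => Nat.find_min h1 hj
    generalize Nat.find h1 = i at hiL hinew hmin
    by_cases h2 : ∃ j, i < j ∧ j < L ∧ ((c j = a ∧ c (j + 1) = b) ∨ (c j = b ∧ c (j + 1) = a))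
    · obtain ⟨hij, hjL, hjnew⟩ := Nat.find_spec h2
      have hmin2 : ∀ r, r < Nat.find h2 →
          ¬ (i < r ∧ r < L ∧ ((c r = a ∧ c (r + 1) = b) ∨ (c r = b ∧ c (r + 1) = a))) :=
        fun r hr => Nat.find_min h2 hr
      generalize Nat.find h2 = j at hij hjL hjnew hmin2
      -- the segment from i+1 to j lies in G
      have hseg : ∀ r, i + 1 ≤ r → r < (i + 1) + (j - (i + 1)) → G (c r) (c (r + 1)) := by
        intro r hr1 hr2
        have hrj : r < j := by omega
        rcases hadj r (by omega) with h | h
        · exact h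
        · exact absurd ⟨by omega, by omega, h⟩ (hmin2 r hrj)
      have hR : Reach G (j - (i + 1)) (c (i + 1)) (c j) := by
        have := reach_of_seg c (i + 1) (j - (i + 1)) hseg
        rwa [show (i + 1) + (j - (i + 1)) = j by omega] at this
      by_cases hEq : c (i + 1) = c j
      · -- closed sub-walk
        by_cases hji : j = i + 1
        · subst hji
          apply hnb i (by omega)
          rcases hinew with ⟨h1a, h1b⟩ | ⟨h1a, h1b⟩ <;> rcases hjnew with ⟨h2a, h2b⟩ | ⟨h2a, h2b⟩
          · exact absurd (h1b.symm.trans h2a) (Ne.symm hab)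
          · rw [h1a, h2b]
          · rw [h1a, h2b]
          · exact absurd (h1b.symm.trans h2a) hab
        · refine hG (fun r => c (i + 1 + r)) (j - (i + 1)) (by omega) (by omega) ?_ ?_ ?_
          · simp only [Nat.add_zero]
            rw [show i + 1 + (j - (i + 1)) = j by omega]
            exact hEq
          · intro r hr
            have := hseg (i + 1 + r) (by omega) (by omega)
            simpa [Nat.add_assoc] using this
          · intro r hr
            have := hnb (i + 1 + r) (by omega)
            simpa [Nat.add_assoc] using this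
      · -- endpoints are a and b in some order
        refine hreach' (j - (i + 1)) (by omega) _ _ ?_ hR
        rcases hinew with ⟨h1a, h1b⟩ | ⟨h1a, h1b⟩ <;> rcases hjnew with ⟨h2a, h2b⟩ | ⟨h2a, h2b⟩
        · exact Or.inr ⟨h1b, h2a⟩
        · exact absurd (h1b.trans h2a.symm) hEq
        · exact absurd (h1b.trans h2a.symm) hEq
        · exact Or.inl ⟨h1b, h2a⟩
    · -- exactly one use of the new edge
      have hseg1 : ∀ r, 0 ≤ r → r < 0 + i → G (c r) (c (r + 1)) := by
        intro r _ hr2
        rcases hadj r (by omega) with h | h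
        · exact h
        · exact absurd ⟨by omega, h⟩ (hmin r (by omega))
      have hseg2 : ∀ r, i + 1 ≤ r → r < (i + 1) + (L - (i + 1)) → G (c r) (c (r + 1)) := by
        intro r hr1 hr2
        rcases hadj r (by omega) with h | h
        · exact h
        · exact absurd ⟨r, by omega, by omega, h⟩ h2
      have hR1 : Reach G i (c 0) (c i) := by
        have := reach_of_seg c 0 i hseg1
        rwa [Nat.zero_add] at this
      have hR2 : Reach G (L - (i + 1)) (c (i + 1)) (c L) := by
        have := reach_of_seg c (i + 1) (L - (i + 1)) hseg2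
        rwa [show (i + 1) + (L - (i + 1)) = L by omega] at this
      rw [← hclosed] at hR2
      refine hreach' _ ?_ _ _ ?_ (hR2.trans hR1)
      · omega
      · rcases hinew with ⟨h1a, h1b⟩ | ⟨h1a, h1b⟩
        · exact Or.inr ⟨h1b, h1a⟩
        · exact Or.inl ⟨h1b, h1a⟩
  · exact hG c L hL1 hL2 hclosed
      (fun i hi => (hadj i hi).resolve_right (fun h => h1 ⟨i, hi, h⟩)) hnb


/-- Greedy construction: a symmetric set of pairs `H` inside `T`, without short closed walks,
such that every pair of `T` is joined by at most `2 t - 1` steps of `H` that are not heavier. -/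
theorem exists_greedy [DecidableEq V] (w : V → V → ℝ) (hw : ∀ u v, w u v = w v u) (t : ℕ)
    (ht : 1 ≤ t) (T : Finset (V × V)) (hT : ∀ e ∈ T, e.1 ≠ e.2) :
    ∃ H : V → V → Prop, (∀ u v, H u v → H v u) ∧
      (∀ u v, H u v → (u, v) ∈ T ∨ (v, u) ∈ T) ∧ NoShort H t ∧
      ∀ e ∈ T, Reach (fun u v => H u v ∧ w u v ≤ w e.1 e.2) (2 * t - 1) e.1 e.2 := by
  classical
  revert hT
  refine Finset.induction_on_max_value (fun e : V × V => w e.1 e.2)
    (motive := fun T => (∀ e ∈ T, e.1 ≠ e.2) → ∃ H : V → V → Prop, (∀ u v, H u v → H v u) ∧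
      (∀ u v, H u v → (u, v) ∈ T ∨ (v, u) ∈ T) ∧ NoShort H t ∧
      ∀ e ∈ T, Reach (fun u v => H u v ∧ w u v ≤ w e.1 e.2) (2 * t - 1) e.1 e.2) T ?_ ?_
  · intro _
    refine ⟨fun _ _ => False, fun _ _ h => h, fun _ _ h => h.elim, ?_, fun e he => by simp at he⟩
    intro c L h1 _ _ h4 _
    exact h4 0 (by omega)
  · rintro ⟨a, b⟩ T haT hmax ih hT
    obtain ⟨H, hsymm, hsub, hno, hdom⟩ := ih (fun e he => hT e (Finset.mem_insert_of_mem he))
    have hab : a ≠ b := hT (a, b) (Finset.mem_insert_self _ _)
    have hle : ∀ u v, H u v → w u v ≤ w a b := by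
      intro u v huv
      rcases hsub u v huv with h | h
      · exact hmax _ h
      · rw [hw u v]; exact hmax _ h
    by_cases hR : Reach H (2 * t - 1) a b
    · refine ⟨H, hsymm, ?_, hno, ?_⟩
      · intro u v huv
        rcases hsub u v huv with h | h
        · exact Or.inl (Finset.mem_insert_of_mem h)
        · exact Or.inr (Finset.mem_insert_of_mem h)
      · intro e he
        rcases Finset.mem_insert.mp he with rfl | he
        · exact hR.mono (fun u v huv => ⟨huv, hle u v huv⟩)
        · exact hdom e he
    · refine ⟨fun u v => H u v ∨ (u = a ∧ v = b) ∨ (u = b ∧ v = a), ?_, ?_,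
        hno.add_edge hsymm hab hR, ?_⟩
      · rintro u v (h | ⟨rfl, rfl⟩ | ⟨rfl, rfl⟩)
        · exact Or.inl (hsymm _ _ h)
        · exact Or.inr (Or.inr ⟨rfl, rfl⟩)
        · exact Or.inr (Or.inl ⟨rfl, rfl⟩)
      · rintro u v (h | ⟨rfl, rfl⟩ | ⟨rfl, rfl⟩)
        · rcases hsub u v h with h | h
          · exact Or.inl (Finset.mem_insert_of_mem h)
          · exact Or.inr (Finset.mem_insert_of_mem h)
        · exact Or.inl (Finset.mem_insert_self _ _)
        · exact Or.inr (Finset.mem_insert_self _ _)
      · intro e he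
        rcases Finset.mem_insert.mp he with rfl | he
        · have h1 : Reach (fun u v => (H u v ∨ (u = a ∧ v = b) ∨ (u = b ∧ v = a)) ∧
              w u v ≤ w a b) (0 + 1) a b :=
            Reach.step ⟨Or.inr (Or.inl ⟨rfl, rfl⟩), le_refl _⟩ (Reach.refl 0 b)
          exact h1.mono_len (by omega)
        · exact (hdom e he).mono (fun u v huv => ⟨Or.inl huv.1, huv.2⟩)

section Moore

open Classical in
/-- End points of the walks that start with the step `u → v`, make `l` further steps and never
turn back. -/
noncomputable def sphere [Fintype V] (G : V → V → Prop) : ℕ → V → V → Finset V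
  | 0, _, v => {v}
  | (l + 1), u, v => (Finset.univ.filter (fun w => G v w ∧ w ≠ u)).biUnion (fun w => sphere G l v w)

lemma walk_of_mem_sphere [Fintype V] (G : V → V → Prop) :
    ∀ (l : ℕ) (u v z : V), G u v → z ∈ sphere G l u v →
      ∃ c : ℕ → V, c 0 = u ∧ c 1 = v ∧ c (l + 1) = z ∧ (∀ i, i < l + 1 → G (c i) (c (i + 1))) ∧
        (∀ i, i + 2 ≤ l + 1 → c i ≠ c (i + 2)) := by
  intro l
  induction l with
  | zero =>
    intro u v z huv hz
    simp only [sphere, Finset.mem_singleton] at hz
    subst hz
    refine ⟨fun i => if i = 0 then u else z, by simp, by simp, by simp, ?_, ?_⟩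
    · intro i hi
      have : i = 0 := by omega
      subst this
      simpa using huv
    · intro i hi
      omega
  | succ l ih =>
    intro u v z huv hz
    simp only [sphere, Finset.mem_biUnion, Finset.mem_filter, Finset.mem_univ, true_and] at hz
    obtain ⟨w, ⟨hvw, hwu⟩, hz⟩ := hz
    obtain ⟨c, h0, h1, h2, h3, h4⟩ := ih v w z hvw hz
    refine ⟨fun i => if i = 0 then u else c (i - 1), by simp, by simpa using h0, by simpa using h2,
      ?_, ?_⟩
    · intro i hi
      rcases Nat.eq_zero_or_pos i with rfl | hpos
      · simpa [h0] using huv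
      · obtain ⟨j, rfl⟩ : ∃ j, i = j + 1 := ⟨i - 1, by omega⟩
        simpa using h3 j (by omega)
    · intro i hi
      rcases Nat.eq_zero_or_pos i with rfl | hpos
      · simpa [h1] using hwu.symm
      · obtain ⟨j, rfl⟩ : ∃ j, i = j + 1 := ⟨i - 1, by omega⟩
        simpa using h4 j (by omega)

lemma sphere_disjoint [Fintype V] {G : V → V → Prop} {t : ℕ} (hno : NoShort G t)
    (hsymm : ∀ u v, G u v → G v u) {l : ℕ} (hl : l + 1 ≤ t) {v w w' : V}
    (hw : G v w) (hw' : G v w') (hne : w ≠ w') :
    Disjoint (sphere G l v w) (sphere G l v w') := by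
  rw [Finset.disjoint_left]
  intro z hz hz'
  obtain ⟨c, h0, h1, h2, h3, h4⟩ := walk_of_mem_sphere G l v w z hw hz
  obtain ⟨c', h0', h1', h2', h3', h4'⟩ := walk_of_mem_sphere G l v w' z hw' hz'
  refine hno (fun i => if i ≤ l + 1 then c (l + 1 - i) else c' (i - (l + 1))) (2 * (l + 1))
    (by omega) (by omega) ?_ ?_ ?_
  · have : ¬ (2 * (l + 1) ≤ l + 1) := by omega
    simp only [Nat.zero_le, if_true, this, if_false, Nat.sub_zero]
    rw [h2, show 2 * (l + 1) - (l + 1) = l + 1 by omega, h2']
  · intro i hi
    by_cases hi1 : i + 1 ≤ l + 1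
    · have hi0 : i ≤ l + 1 := by omega
      simp only [hi1, hi0, if_true]
      have := h3 (l - i) (by omega)
      rw [show l - i + 1 = l + 1 - i by omega] at this
      rw [show l + 1 - (i + 1) = l - i by omega]
      exact hsymm _ _ this
    · by_cases hi0 : i ≤ l + 1
      · have hil : i = l + 1 := by omega
        subst hil
        simp only [hi1, le_refl, if_true, if_false, Nat.sub_self]
        rw [show l + 1 + 1 - (l + 1) = 1 by omega, h0, h1']
        exact hw'
      · simp only [hi1, hi0, if_false]
        have := h3' (i - (l + 1)) (by omega)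
        rwa [show i - (l + 1) + 1 = i + 1 - (l + 1) by omega] at this
  · intro i hi
    by_cases hi2 : i + 2 ≤ l + 1
    · have hi0 : i ≤ l + 1 := by omega
      simp only [hi2, hi0, if_true]
      have := h4 (l + 1 - (i + 2)) (by omega)
      rw [show l + 1 - (i + 2) + 2 = l + 1 - i by omega] at this
      exact this.symm
    · by_cases hi0 : i ≤ l + 1
      · by_cases hil : i = l + 1
        · subst hil
          simp only [hi2, le_refl, if_true, if_false, Nat.sub_self]
          have := h4' 0 (by omega)
          rw [h0'] at this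
          rw [h0, show l + 1 + 2 - (l + 1) = 0 + 2 by omega]
          exact this
        · have hil' : i = l := by omega
          subst hil'
          simp only [hi2, hi0, if_true, if_false]
          rw [show i + 1 - i = 1 by omega, show i + 2 - (i + 1) = 1 by omega, h1, h1']
          exact hne
      · simp only [hi2, hi0, if_false]
        have := h4' (i - (l + 1)) (by omega)
        rwa [show i - (l + 1) + 2 = i + 2 - (l + 1) by omega] at this

open Classical in
lemma card_sphere_ge [Fintype V] {G : V → V → Prop} {t δ : ℕ} (hno : NoShort G t)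
    (hsymm : ∀ u v, G u v → G v u)
    (hdeg : ∀ v, (∃ u, G u v) → δ + 1 ≤ (Finset.univ.filter (fun w => G v w)).card) :
    ∀ (l : ℕ), l ≤ t → ∀ u v, G u v → δ ^ l ≤ (sphere G l u v).card := by
  intro l
  induction l with
  | zero => intro _ u v _; simp [sphere]
  | succ l ih =>
    intro hl u v huv
    simp only [sphere]
    rw [Finset.card_biUnion]
    · have hcard : δ ≤ (Finset.univ.filter (fun w => G v w ∧ w ≠ u)).card := by
        have h1 := hdeg v ⟨u, huv⟩
        have h2 : (Finset.univ.filter (fun w => G v w ∧ w ≠ u)) =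
            (Finset.univ.filter (fun w => G v w)).erase u := by
          ext x
          simp only [Finset.mem_filter, Finset.mem_univ, true_and, Finset.mem_erase]
          tauto
        rw [h2]
        have h3 := Finset.pred_card_le_card_erase (s := Finset.univ.filter (fun w => G v w)) (a := u)
        omega
      calc δ ^ (l + 1) = δ * δ ^ l := by ring
        _ ≤ (Finset.univ.filter (fun w => G v w ∧ w ≠ u)).card * δ ^ l :=
            Nat.mul_le_mul_right _ hcard
        _ = ∑ w ∈ Finset.univ.filter (fun w => G v w ∧ w ≠ u), δ ^ l := by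
            rw [Finset.sum_const, smul_eq_mul]
        _ ≤ _ := by
            apply Finset.sum_le_sum
            intro w hw
            simp only [Finset.mem_filter, Finset.mem_univ, true_and] at hw
            exact ih (by omega) v w hw.1
    · intro x hx y hy hxy
      have hx' := (Finset.mem_filter.mp hx).2
      have hy' := (Finset.mem_filter.mp hy).2
      exact sphere_disjoint hno hsymm (by omega) hx'.1 hy'.1 hxy

open Classical in
/-- Moore type bound via degeneracy: few ordered pairs in a relation without short closed walks. -/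
theorem card_darts_le [Fintype V] (t δ : ℕ) (hδ : Fintype.card V < δ ^ t) :
    ∀ (k : ℕ) (U : Finset V), U.card = k → ∀ (G : V → V → Prop), (∀ u v, G u v → G v u) →
      NoShort G t → (∀ u v, G u v → u ∈ U ∧ v ∈ U) →
      (Finset.univ.filter (fun e : V × V => G e.1 e.2)).card ≤ 2 * δ * k := by
  intro k
  induction k with
  | zero =>
    intro U hU G _ _ hGU
    have hU' : U = ∅ := Finset.card_eq_zero.mp hU
    have : (Finset.univ.filter (fun e : V × V => G e.1 e.2)) = ∅ := by
      apply Finset.filter_eq_empty_iff.mpr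
      intro e _ he
      have := (hGU _ _ he).1
      simp [hU'] at this
    simp [this]
  | succ k ih =>
    intro U hU G hsymm hno hGU
    by_cases hex : ∃ u v, G u v
    · obtain ⟨u, v, huv⟩ := hex
      -- a non isolated vertex of small degree
      have hlow : ∃ v0, (∃ u, G u v0) ∧ (Finset.univ.filter (fun w => G v0 w)).card ≤ δ := by
        by_contra hcon
        push Not at hcon
        have h1 := card_sphere_ge hno hsymm (δ := δ) (fun v hv => hcon v hv) t le_rfl u v huv
        have h2 : (sphere G t u v).card ≤ Fintype.card V := Finset.card_le_univ _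
        omega
      obtain ⟨v0, ⟨u0, hu0⟩, hdeg⟩ := hlow
      have hv0U : v0 ∈ U := (hGU _ _ hu0).2
      have hIH := ih (U.erase v0) (by rw [Finset.card_erase_of_mem hv0U, hU]; rfl)
        (fun a b => G a b ∧ a ≠ v0 ∧ b ≠ v0)
        (fun a b h => ⟨hsymm _ _ h.1, h.2.2, h.2.1⟩)
        (hno.mono (fun a b h => h.1))
        (fun a b h => ⟨Finset.mem_erase.mpr ⟨h.2.1, (hGU _ _ h.1).1⟩,
          Finset.mem_erase.mpr ⟨h.2.2, (hGU _ _ h.1).2⟩⟩)
      have hsub : (Finset.univ.filter (fun e : V × V => G e.1 e.2)) ⊆
          (Finset.univ.filter (fun e : V × V => G e.1 e.2 ∧ e.1 ≠ v0 ∧ e.2 ≠ v0)) ∪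
          ((Finset.univ.filter (fun w => G v0 w)).image (fun w => (v0, w)) ∪
           (Finset.univ.filter (fun w => G v0 w)).image (fun w => (w, v0))) := by
        rintro ⟨a, b⟩ he
        simp only [Finset.mem_filter, Finset.mem_univ, true_and] at he
        simp only [Finset.mem_union, Finset.mem_filter, Finset.mem_univ, true_and,
          Finset.mem_image, Prod.mk.injEq]
        by_cases ha : a = v0
        · subst ha
          exact Or.inr (Or.inl ⟨b, he, rfl, rfl⟩)
        · by_cases hb : b = v0
          · subst hb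
            exact Or.inr (Or.inr ⟨a, hsymm _ _ he, rfl, rfl⟩)
          · exact Or.inl ⟨he, ha, hb⟩
      calc (Finset.univ.filter (fun e : V × V => G e.1 e.2)).card
          ≤ _ := Finset.card_le_card hsub
        _ ≤ (Finset.univ.filter (fun e : V × V => G e.1 e.2 ∧ e.1 ≠ v0 ∧ e.2 ≠ v0)).card +
            (((Finset.univ.filter (fun w => G v0 w)).image (fun w => (v0, w))).card +
             ((Finset.univ.filter (fun w => G v0 w)).image (fun w => (w, v0))).card) :=
            (Finset.card_union_le _ _).trans (Nat.add_le_add_left (Finset.card_union_le _ _) _)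
        _ ≤ 2 * δ * k + (δ + δ) := by
            have hIH' : (Finset.univ.filter
                (fun e : V × V => G e.1 e.2 ∧ e.1 ≠ v0 ∧ e.2 ≠ v0)).card ≤ 2 * δ * k := by
              convert hIH
            apply Nat.add_le_add hIH'
            exact Nat.add_le_add (Finset.card_image_le.trans hdeg) (Finset.card_image_le.trans hdeg)
        _ = 2 * δ * (k + 1) := by ring
    · have : (Finset.univ.filter (fun e : V × V => G e.1 e.2)) = ∅ := by
        apply Finset.filter_eq_empty_iff.mpr
        intro e _ he
        exact hex ⟨_, _, he⟩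
      simp [this]

end Moore

open Classical in
/-- The combinatorial input of the dimension reduction theorem: for a symmetric weight on a finite
set with fewer than `δ ^ t` points there is a finite set `H` of at most `2 δ |V|` ordered pairs
such that every pair of distinct points is joined by at most `2 t - 1` steps taken from `H`, none
of them heavier than the pair itself. -/
theorem exists_sparse_dominating [Fintype V] (w : V → V → ℝ) (hw : ∀ u v, w u v = w v u)
    (t δ : ℕ) (ht : 1 ≤ t) (hδ : Fintype.card V < δ ^ t) :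
    ∃ H : Finset (V × V), H.card ≤ 2 * δ * Fintype.card V ∧
      ∀ a b, a ≠ b → Reach (fun u v => (u, v) ∈ H ∧ w u v ≤ w a b) (2 * t - 1) a b := by
  obtain ⟨H, hsymm, _, hno, hdom⟩ := exists_greedy w hw t ht
    (Finset.univ.filter (fun e : V × V => e.1 ≠ e.2)) (by intro e he; simpa using he)
  refine ⟨Finset.univ.filter (fun e : V × V => H e.1 e.2), ?_, ?_⟩
  · exact card_darts_le t δ hδ _ Finset.univ rfl H hsymm hno (by simp)
  · intro a b hab
    have := hdom (a, b) (by simpa using hab)
    exact this.mono (fun u v h => ⟨by simpa using h.1, h.2⟩)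

end Vale.Agent.Lib.P249
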