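import Mathlib
import Vale.Agent.Lib.P249.Spanner
import Vale.Agent.Lib.P249.Sampling

/-!
# Dimension reduction in `ℓ_p` by sensitivity sampling along a sparse spanner
-/

namespace Vale.Agent.Lib.P249

open Finset

/-- Core statement on `p`-th powers of distances; the map is linear (a weighted restriction to
`d` coordinates). -/
theorem dim_reduction_linear (p : ℝ) (hp : 1 ≤ p) (n m t δ d : ℕ) (ht : 1 ≤ t) (hδ : n < δ ^ t)
    (ε : ℝ) (hε0 : 0 < ε) (hε1 : ε ≤ 1)
    (hd : 4 * (((2 * t - 1 : ℕ) : ℝ) ^ p * (2 * δ * n)) * Real.log (2 * (n : ℝ) ^ 2) < ε ^ 2 * d)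
    (x : Fin n → Fin m → ℝ) :
    ∃ T : (Fin m → ℝ) →ₗ[ℝ] (Fin d → ℝ), ∀ i j,
      (1 - ε) * ∑ k, |x i k - x j k| ^ p ≤ ∑ r, |T (x i) r - T (x j) r| ^ p ∧
      ∑ r, |T (x i) r - T (x j) r| ^ p ≤ (1 + ε) * ∑ k, |x i k - x j k| ^ p := by
  classical
  have hp0 : 0 < p := by linarith
  have hpne : p ≠ 0 := hp0.ne'
  set w : Fin n → Fin n → ℝ := fun a b => ∑ k, |x a k - x b k| ^ p with hw
  have hwsymm : ∀ u v, w u v = w v u := by
    intro u v
    simp only [hw]
    apply sum_congr rfl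
    intro k _
    rw [abs_sub_comm]
  have hw0 : ∀ u v, 0 ≤ w u v := fun u v => sum_nonneg (fun k _ => by positivity)
  obtain ⟨H, hHcard, hHdom⟩ := exists_sparse_dominating w hwsymm t δ ht (by simpa using hδ)
  rw [Fintype.card_fin] at hHcard
  set α : ℝ := ((2 * t - 1 : ℕ) : ℝ) with hα
  have hα0 : 0 ≤ α := Nat.cast_nonneg _
  set σ : Fin m → ℝ := fun k => ∑ e ∈ H, |x e.1 k - x e.2 k| ^ p / w e.1 e.2 with hσ
  have hσ0 : ∀ k, 0 ≤ σ k := fun k =>
    sum_nonneg (fun e _ => div_nonneg (by positivity) (hw0 _ _))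
  have hαp0 : 0 ≤ α ^ p := Real.rpow_nonneg hα0 p
  -- the sensitivity bound
  have hbound : ∀ (q : Fin n × Fin n) (k : Fin m),
      |x q.1 k - x q.2 k| ^ p ≤ (α ^ p * σ k) * ∑ k', |x q.1 k' - x q.2 k'| ^ p := by
    rintro ⟨i, j⟩ k
    simp only
    by_cases hij : i = j
    · subst hij
      simp [Real.zero_rpow hpne]
    · have hR := hHdom i j hij
      set B : ℝ := σ k * w i j with hB
      have hB0 : 0 ≤ B := mul_nonneg (hσ0 k) (hw0 i j)
      have hstep : ∀ u v, ((u, v) ∈ H ∧ w u v ≤ w i j) → |x u k - x v k| ≤ B ^ p⁻¹ := by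
        rintro u v ⟨huv, hle⟩
        have h1 : |x u k - x v k| ^ p ≤ B := by
          rcases (hw0 u v).lt_or_eq with hpos | hzero
          · have h2 : |x u k - x v k| ^ p / w u v ≤ σ k :=
              single_le_sum (f := fun e : Fin n × Fin n => |x e.1 k - x e.2 k| ^ p / w e.1 e.2)
                (fun e _ => div_nonneg (by positivity) (hw0 _ _)) huv
            calc |x u k - x v k| ^ p = |x u k - x v k| ^ p / w u v * w u v := by
                  field_simp
              _ ≤ σ k * w i j := mul_le_mul h2 hle hpos.le (hσ0 k)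
          · have h3 : |x u k - x v k| ^ p = 0 :=
              (sum_eq_zero_iff_of_nonneg (fun k _ => by positivity)).mp hzero.symm k (mem_univ k)
            rw [h3]; exact hB0
        calc |x u k - x v k| = (|x u k - x v k| ^ p) ^ p⁻¹ :=
              (Real.rpow_rpow_inv (abs_nonneg _) hpne).symm
          _ ≤ B ^ p⁻¹ := Real.rpow_le_rpow (by positivity) h1 (by positivity)
      have h4 := hR.abs_sub_le (fun u => x u k) (B ^ p⁻¹) (Real.rpow_nonneg hB0 _) hstep
      calc |x i k - x j k| ^ p ≤ (α * B ^ p⁻¹) ^ p :=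
            Real.rpow_le_rpow (abs_nonneg _) h4 hp0.le
        _ = α ^ p * B := by
            rw [Real.mul_rpow hα0 (Real.rpow_nonneg hB0 _), Real.rpow_inv_rpow hB0 hpne]
        _ = (α ^ p * σ k) * w i j := by rw [hB]; ring
  -- total sensitivity
  have hStot : ∑ k, α ^ p * σ k ≤ α ^ p * (2 * δ * n) := by
    rw [← mul_sum]
    apply mul_le_mul_of_nonneg_left _ hαp0
    simp only [hσ]
    rw [sum_comm]
    calc ∑ e ∈ H, ∑ k, |x e.1 k - x e.2 k| ^ p / w e.1 e.2 ≤ ∑ e ∈ H, (1 : ℝ) := by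
          apply sum_le_sum
          intro e _
          rw [← sum_div]
          exact div_self_le_one _
      _ = (H.card : ℝ) := by simp
      _ ≤ 2 * δ * n := by exact_mod_cast hHcard
  have hs0 : ∀ k, 0 ≤ α ^ p * σ k := fun k => mul_nonneg hαp0 (hσ0 k)
  rcases (sum_nonneg (fun k (_ : k ∈ univ) => hs0 k)).lt_or_eq with hSpos | hSzero
  · -- main case
    have hcond : 2 * (Fintype.card (Fin n × Fin n) : ℝ) *
        Real.exp (-(d * ε ^ 2 / (4 * ∑ k, α ^ p * σ k))) < 1 := by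
      rw [Fintype.card_prod, Fintype.card_fin]
      rcases Nat.eq_zero_or_pos n with hn | hn
      · subst hn; simp
      · have hn1 : (1 : ℝ) ≤ n := by exact_mod_cast hn
        have h2n : (1 : ℝ) < 2 * (n : ℝ) ^ 2 := by nlinarith
        have hlog : 0 < Real.log (2 * (n : ℝ) ^ 2) := Real.log_pos h2n
        have hz : Real.log (2 * (n : ℝ) ^ 2) < d * ε ^ 2 / (4 * ∑ k, α ^ p * σ k) := by
          rw [lt_div_iff₀ (by positivity)]
          calc Real.log (2 * (n : ℝ) ^ 2) * (4 * ∑ k, α ^ p * σ k)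
              ≤ Real.log (2 * (n : ℝ) ^ 2) * (4 * (α ^ p * (2 * δ * n))) := by
                apply mul_le_mul_of_nonneg_left _ hlog.le
                linarith
            _ = 4 * (α ^ p * (2 * δ * n)) * Real.log (2 * (n : ℝ) ^ 2) := by ring
            _ < ε ^ 2 * d := hd
            _ = d * ε ^ 2 := by ring
        have h5 : 2 * ((n * n : ℕ) : ℝ) = Real.exp (Real.log (2 * (n : ℝ) ^ 2)) := by
          rw [Real.exp_log (by positivity)]; push_cast; ring
        rw [h5, ← Real.exp_add, Real.exp_lt_one_iff]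
        linarith
    obtain ⟨κ, c, hc0, hc⟩ := exists_weighted_subsample
      (fun (q : Fin n × Fin n) k => |x q.1 k - x q.2 k| ^ p) (fun k => α ^ p * σ k)
      (fun q k => by positivity) hs0 hbound hSpos ε hε0 hε1 d hcond
    refine ⟨LinearMap.pi (fun r => (c r ^ p⁻¹) • LinearMap.proj (κ r)), fun i j => ?_⟩
    simp only [LinearMap.pi_apply, LinearMap.smul_apply, LinearMap.proj_apply, smul_eq_mul]
    have hy : ∀ r, |c r ^ p⁻¹ * x i (κ r) - c r ^ p⁻¹ * x j (κ r)| ^ p =
        c r * |x i (κ r) - x j (κ r)| ^ p := by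
      intro r
      rw [← mul_sub, abs_mul, abs_of_nonneg (Real.rpow_nonneg (hc0 r) _),
        Real.mul_rpow (Real.rpow_nonneg (hc0 r) _) (abs_nonneg _),
        Real.rpow_inv_rpow (hc0 r) hpne]
    simp_rw [hy]
    exact hc (i, j)
  · -- all distances vanish
    have hsk : ∀ k, α ^ p * σ k = 0 := by
      intro k
      exact (sum_eq_zero_iff_of_nonneg (fun k _ => hs0 k)).mp hSzero.symm k (mem_univ k)
    have hzero : ∀ i j k, |x i k - x j k| ^ p = 0 := by
      intro i j k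
      have := hbound (i, j) k
      rw [hsk k, zero_mul] at this
      exact le_antisymm this (by positivity)
    refine ⟨0, fun i j => ?_⟩
    simp [hzero, Real.zero_rpow hpne]

/-- Core statement on `p`-th powers of distances. -/
theorem dim_reduction_core (p : ℝ) (hp : 1 ≤ p) (n m t δ d : ℕ) (ht : 1 ≤ t) (hδ : n < δ ^ t)
    (ε : ℝ) (hε0 : 0 < ε) (hε1 : ε ≤ 1)
    (hd : 4 * (((2 * t - 1 : ℕ) : ℝ) ^ p * (2 * δ * n)) * Real.log (2 * (n : ℝ) ^ 2) < ε ^ 2 * d)
    (x : Fin n → Fin m → ℝ) :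
    ∃ y : Fin n → Fin d → ℝ, ∀ i j,
      (1 - ε) * ∑ k, |x i k - x j k| ^ p ≤ ∑ r, |y i r - y j r| ^ p ∧
      ∑ r, |y i r - y j r| ^ p ≤ (1 + ε) * ∑ k, |x i k - x j k| ^ p := by
  obtain ⟨T, hT⟩ := dim_reduction_linear p hp n m t δ d ht hδ ε hε0 hε1 hd x
  exact ⟨fun i => T (x i), hT⟩

end Vale.Agent.Lib.P249
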