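import Mathlib

/-!
# `p`-energies on finite weighted graphs: definitions and basic facts
-/

namespace Vale.Agent.Lib.P249

open Finset

variable {V : Type*} [Fintype V]

/-- The `p`-energy of a function on a weighted graph (sum over ordered pairs). -/
noncomputable def energy (p : ℝ) (c : V → V → ℝ) (g : V → ℝ) : ℝ :=
  ∑ u, ∑ v, c u v * |g u - g v| ^ p

/-- The `p`-flux of `f` paired with the gradient of `g`. -/
noncomputable def fluxPair (p : ℝ) (c : V → V → ℝ) (f g : V → ℝ) : ℝ :=
  ∑ u, ∑ v, c u v * (|f u - f v| ^ (p - 2) * (f u - f v)) * (g u - g v)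

/-- `f` is an equilibrium potential of the pair `(x, x')`. -/
structure IsPotential (p : ℝ) (c : V → V → ℝ) (x x' : V) (f : V → ℝ) : Prop where
  top : f x = 1
  bot : f x' = 0
  nonneg : ∀ v, 0 ≤ f v
  le_one : ∀ v, f v ≤ 1
  min : ∀ h : V → ℝ, energy p c f * |h x - h x'| ^ p ≤ energy p c h
  euler : ∀ g : V → ℝ, fluxPair p c f g = energy p c f * (g x - g x')

lemma energy_nonneg (p : ℝ) (c : V → V → ℝ) (hc0 : ∀ u v, 0 ≤ c u v) (g : V → ℝ) :
    0 ≤ energy p c g :=
  sum_nonneg fun u _ => sum_nonneg fun v _ => mul_nonneg (hc0 u v) (by positivity)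

lemma term_le_energy (p : ℝ) (c : V → V → ℝ) (hc0 : ∀ u v, 0 ≤ c u v) (g : V → ℝ) (u v : V) :
    c u v * |g u - g v| ^ p ≤ energy p c g := by
  unfold energy
  calc c u v * |g u - g v| ^ p ≤ ∑ v', c u v' * |g u - g v'| ^ p :=
        single_le_sum (f := fun v' => c u v' * |g u - g v'| ^ p)
          (fun v' _ => mul_nonneg (hc0 u v') (by positivity)) (mem_univ v)
    _ ≤ _ := single_le_sum (f := fun u' => ∑ v', c u' v' * |g u' - g v'| ^ p)
          (fun u' _ => sum_nonneg fun v' _ => mul_nonneg (hc0 u' v') (by positivity)) (mem_univ u)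

/-- Contractions do not increase the energy. -/
lemma energy_comp_le (p : ℝ) (hp : 0 ≤ p) (c : V → V → ℝ) (hc0 : ∀ u v, 0 ≤ c u v) (g g' : V → ℝ)
    (h : ∀ u v, |g' u - g' v| ≤ |g u - g v|) : energy p c g' ≤ energy p c g :=
  sum_le_sum fun u _ => sum_le_sum fun v _ =>
    mul_le_mul_of_nonneg_left (Real.rpow_le_rpow (abs_nonneg _) (h u v) hp) (hc0 u v)

/-- Affine changes of the function. -/
lemma energy_affine (p : ℝ) (c : V → V → ℝ) (g : V → ℝ) (a b : ℝ) :
    energy p c (fun v => a * g v + b) = |a| ^ p * energy p c g := by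
  unfold energy
  rw [mul_sum]
  apply sum_congr rfl; intro u _
  rw [mul_sum]
  apply sum_congr rfl; intro v _
  have : a * g u + b - (a * g v + b) = a * (g u - g v) := by ring
  rw [this, abs_mul, Real.mul_rpow (abs_nonneg _) (abs_nonneg _)]
  ring

/-- Monotonicity in the conductances. -/
lemma energy_mono (p : ℝ) (c c' : V → V → ℝ) (h : ∀ u v, c u v ≤ c' u v) (g : V → ℝ) :
    energy p c g ≤ energy p c' g :=
  sum_le_sum fun u _ => sum_le_sum fun v _ => mul_le_mul_of_nonneg_right (h u v) (by positivity)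

end Vale.Agent.Lib.P249
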