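import Mathlib
import Vale.Agent.Lib.P249.Energy

/-!
# The key three-point inequality for `p`-potentials
-/

namespace Vale.Agent.Lib.P249

open Finset

variable {V : Type*} [Fintype V]

/-- The constant of the key lemma. -/
noncomputable def keyConst (p : ℝ) : ℝ :=
  4 / p * (2 ^ p * (p / (5 * 2 ^ p)) ^ (1 - p) + (1 + 1 / (p / (4 * (2 ^ p) ^ 2))) ^ p)

/-- The constant of its corollary. -/
noncomputable def keyConst2 (p : ℝ) : ℝ := keyConst p * 4 ^ (p - 1) + 2 ^ p * 5 ^ (p - 1)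

lemma rpow_one_add_le (p : ℝ) (hp : 1 ≤ p) (w : ℝ) (hw0 : 0 ≤ w) (hw1 : w ≤ 1) :
    (1 + w) ^ p ≤ 1 + (2 ^ p - 1) * w := by
  have hconv := convexOn_rpow hp
  have h := hconv.2 (show (1 : ℝ) ∈ Set.Ici 0 by simp) (show (2 : ℝ) ∈ Set.Ici 0 by simp)
    (show 0 ≤ 1 - w by linarith) hw0 (by ring)
  simp only [smul_eq_mul, Real.one_rpow, mul_one] at h
  have h1 : 1 - w + w * 2 = 1 + w := by ring
  rw [h1] at h
  linarith

lemma add_mul_rpow_le (p : ℝ) (hp : 1 ≤ p) (T B z : ℝ) (hB0 : 0 ≤ B) (hBT : B ≤ T) (hz0 : 0 ≤ z)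
    (hz1 : z ≤ 1) : (T + B * z) ^ p ≤ T ^ p + (2 ^ p - 1) * (z * B * T ^ (p - 1)) := by
  rcases (hB0.trans hBT).lt_or_eq with hT | hT
  · have hw0 : 0 ≤ B * z / T := by positivity
    have hw1 : B * z / T ≤ 1 := by
      rw [div_le_one hT]
      nlinarith
    have h1 : T + B * z = T * (1 + B * z / T) := by field_simp
    have h2 : T ^ p = T * T ^ (p - 1) := by
      rw [Real.rpow_sub_one hT.ne']; field_simp
    rw [h1, Real.mul_rpow hT.le (by linarith)]
    have h3 := rpow_one_add_le p hp _ hw0 hw1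
    have hTp : 0 ≤ T ^ p := Real.rpow_nonneg hT.le p
    calc T ^ p * (1 + B * z / T) ^ p ≤ T ^ p * (1 + (2 ^ p - 1) * (B * z / T)) :=
          mul_le_mul_of_nonneg_left h3 hTp
      _ = T ^ p + (2 ^ p - 1) * (z * B * T ^ (p - 1)) := by
          rw [h2]; field_simp
  · have hB : B = 0 := le_antisymm (hT ▸ hBT) hB0
    subst hB
    rw [← hT]
    simp

lemma two_rpow_ge (p : ℝ) (hp : 1 ≤ p) : 1 + p ≤ (2 : ℝ) ^ p := by
  have := one_add_mul_self_le_rpow_one_add (s := 1) (by norm_num) hp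
  norm_num at this
  linarith

lemma add_rpow_le_split (p : ℝ) (hp : 2 ≤ p) (α β : ℝ) (hα : 0 ≤ α) (hβ : 0 ≤ β) :
    (α + β) ^ p ≤ (1 + p / (4 * 2 ^ p)) * α ^ p +
      (1 + 1 / (p / (4 * (2 ^ p) ^ 2))) ^ p * β ^ p := by
  have hp0 : 0 < p := by linarith
  have hb : 1 + p ≤ (2 : ℝ) ^ p := two_rpow_ge p (by linarith)
  set b : ℝ := 2 ^ p with hbdef
  have hb0 : 0 < b := by linarith
  set δ : ℝ := p / (4 * b ^ 2) with hδ
  have hδ0 : 0 < δ := by positivity
  have hδ1 : δ ≤ 1 := by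
    rw [hδ, div_le_one (by positivity)]
    nlinarith
  have hαp : 0 ≤ α ^ p := Real.rpow_nonneg hα p
  have hβp : 0 ≤ β ^ p := Real.rpow_nonneg hβ p
  by_cases hcase : β ≤ δ * α
  · have h1 : (α + β) ^ p ≤ ((1 + δ) * α) ^ p :=
      Real.rpow_le_rpow (by linarith) (by linarith) hp0.le
    rw [Real.mul_rpow (by linarith) hα] at h1
    have h2 := rpow_one_add_le p (by linarith) δ hδ0.le hδ1
    have h3 : (2 ^ p - 1) * δ ≤ p / (4 * b) := by
      rw [← hbdef, hδ]
      have : p / (4 * b) = b * (p / (4 * b ^ 2)) := by field_simp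
      rw [this]
      apply mul_le_mul_of_nonneg_right (by linarith) (by positivity)
    have h4 : (1 + δ) ^ p * α ^ p ≤ (1 + p / (4 * b)) * α ^ p :=
      mul_le_mul_of_nonneg_right (by linarith) hαp
    have h5 : 0 ≤ (1 + 1 / δ) ^ p * β ^ p := by positivity
    linarith
  · have hcase' : δ * α < β := not_le.mp hcase
    have h0 : α ≤ 1 / δ * β := by
      rw [one_div, ← div_eq_inv_mul, le_div_iff₀ hδ0]
      linarith
    have h1 : (α + β) ^ p ≤ ((1 + 1 / δ) * β) ^ p :=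
      Real.rpow_le_rpow (by linarith) (by linarith) hp0.le
    rw [Real.mul_rpow (by positivity) hβ] at h1
    have h5 : 0 ≤ (1 + p / (4 * b)) * α ^ p := by positivity
    linarith

lemma young_cases (p : ℝ) (hp : 1 < p) (θ : ℝ) (hθ : 0 < θ) (a b : ℝ) (ha : 0 ≤ a) (hb : 0 ≤ b) :
    a ^ (p - 1) * b ≤ θ * a ^ p + θ ^ (1 - p) * b ^ p := by
  have hp1 : 0 < p - 1 := by linarith
  have hap : 0 ≤ a ^ p := Real.rpow_nonneg ha p
  have hbp : 0 ≤ b ^ p := Real.rpow_nonneg hb p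
  have hsplit : ∀ t : ℝ, 0 ≤ t → t ^ p = t ^ (p - 1) * t := by
    intro t ht
    rcases ht.lt_or_eq with h | h
    · rw [Real.rpow_sub_one h.ne']; field_simp
    · rw [← h, Real.zero_rpow (by linarith), Real.zero_rpow hp1.ne']; simp
  by_cases hcase : b ≤ θ * a
  · have h1 : a ^ (p - 1) * b ≤ a ^ (p - 1) * (θ * a) :=
      mul_le_mul_of_nonneg_left hcase (Real.rpow_nonneg ha _)
    have h2 : a ^ (p - 1) * (θ * a) = θ * a ^ p := by rw [hsplit a ha]; ring
    have h3 : 0 ≤ θ ^ (1 - p) * b ^ p := by positivity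
    linarith
  · have hcase' : θ * a < b := not_le.mp hcase
    have h0 : a ≤ b / θ := by rw [le_div_iff₀ hθ]; linarith
    have h1 : a ^ (p - 1) ≤ (b / θ) ^ (p - 1) := Real.rpow_le_rpow ha h0 hp1.le
    have h2 : (b / θ) ^ (p - 1) = θ ^ (1 - p) * b ^ (p - 1) := by
      rw [Real.div_rpow hb hθ.le, div_eq_mul_inv, ← Real.rpow_neg hθ.le, neg_sub, mul_comm]
    have h3 : a ^ (p - 1) * b ≤ θ ^ (1 - p) * b ^ (p - 1) * b := by
      rw [← h2]; exact mul_le_mul_of_nonneg_right h1 hb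
    have h4 : θ ^ (1 - p) * b ^ (p - 1) * b = θ ^ (1 - p) * b ^ p := by rw [hsplit b hb]; ring
    have h5 : 0 ≤ θ * a ^ p := by positivity
    linarith

lemma abs_rpow_sub_two_mul (p : ℝ) (hp : 1 < p) (Δ : ℝ) (hΔ : 0 ≤ Δ) :
    |Δ| ^ (p - 2) * Δ = Δ ^ (p - 1) := by
  rw [abs_of_nonneg hΔ]
  rcases hΔ.lt_or_eq with h | h
  · have : p - 1 = (p - 2) + 1 := by ring
    rw [this, Real.rpow_add h, Real.rpow_one]
  · rw [← h, mul_zero, Real.zero_rpow (by linarith)]

lemma rpow_eq_sub_one_mul (p : ℝ) (hp : 1 < p) (t : ℝ) (ht : 0 ≤ t) : t ^ p = t ^ (p - 1) * t := by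
  rcases ht.lt_or_eq with h | h
  · rw [Real.rpow_sub_one h.ne']; field_simp
  · rw [← h, Real.zero_rpow (by linarith), Real.zero_rpow (by linarith)]; simp

lemma core1 (p : ℝ) (hp : 2 ≤ p) (Δ A B z w e lam : ℝ) (hA : 0 ≤ A) (hB : 0 ≤ B)
    (hAB : A + B ≤ Δ) (hz0 : 0 ≤ z) (hz1 : z ≤ 1) (hw0 : 0 ≤ w) (hw : w ≤ lam)
    (hwA : 0 < w → A = 0) :
    |A + B * (1 + z) + w * e| ^ p ≤ Δ ^ (p - 1) * (A + B) + (2 ^ p - 1) * (Δ ^ (p - 1) * B * z)
      + p / 4 * (Δ ^ (p - 1) * B)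
      + (1 + 1 / (p / (4 * (2 ^ p) ^ 2))) ^ p * lam ^ p * |e| ^ p := by
  have hp0 : 0 < p := by linarith
  have hp1 : 0 < p - 1 := by linarith
  have hΔ : 0 ≤ Δ := by linarith
  have hb : 1 + p ≤ (2 : ℝ) ^ p := two_rpow_ge p (by linarith)
  set J : ℝ := Δ ^ (p - 1) with hJ
  have hJ0 : 0 ≤ J := Real.rpow_nonneg hΔ _
  have hlam0 : 0 ≤ lam := hw0.trans hw
  have hle : ∀ T : ℝ, 0 ≤ T → T ≤ Δ → T ^ (p - 1) ≤ J := fun T h0 h1 =>
    Real.rpow_le_rpow h0 h1 hp1.le
  have hK0 : 0 ≤ (1 + 1 / (p / (4 * ((2 : ℝ) ^ p) ^ 2))) ^ p * lam ^ p * |e| ^ p := by positivity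
  -- the basic estimate for `(T + B z) ^ p`
  have hbasic : ∀ T : ℝ, B ≤ T → T ≤ Δ →
      (T + B * z) ^ p ≤ J * T + (2 ^ p - 1) * (J * B * z) := by
    intro T hBT hTΔ
    have hT0 : 0 ≤ T := hB.trans hBT
    have h1 := add_mul_rpow_le p (by linarith) T B z hB hBT hz0 hz1
    have h2 : T ^ p ≤ J * T := by
      rw [rpow_eq_sub_one_mul p (by linarith) T hT0]
      exact mul_le_mul_of_nonneg_right (hle T hT0 hTΔ) hT0
    have h3 : z * B * T ^ (p - 1) ≤ J * B * z := by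
      have := mul_le_mul_of_nonneg_left (hle T hT0 hTΔ) (mul_nonneg hz0 hB)
      linarith
    have h4 : (2 ^ p - 1) * (z * B * T ^ (p - 1)) ≤ (2 ^ p - 1) * (J * B * z) :=
      mul_le_mul_of_nonneg_left h3 (by linarith)
    linarith
  rcases hw0.lt_or_eq with hwpos | hw00
  · have hA0 : A = 0 := hwA hwpos
    subst hA0
    simp only [zero_add] at hAB ⊢
    have h1 : |B * (1 + z) + w * e| ≤ (B + B * z) + lam * |e| := by
      calc |B * (1 + z) + w * e| ≤ |B * (1 + z)| + |w * e| := abs_add_le _ _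
        _ = B * (1 + z) + w * |e| := by
            rw [abs_of_nonneg (by positivity), abs_mul, abs_of_nonneg hw0]
        _ ≤ (B + B * z) + lam * |e| := by
            have := mul_le_mul_of_nonneg_right hw (abs_nonneg e)
            linarith
    have h2 : |B * (1 + z) + w * e| ^ p ≤ ((B + B * z) + lam * |e|) ^ p :=
      Real.rpow_le_rpow (abs_nonneg _) h1 hp0.le
    have h3 := add_rpow_le_split p hp (B + B * z) (lam * |e|) (by positivity) (by positivity)
    have h4 := hbasic B le_rfl hAB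
    have h5 : (B + B * z) ^ p ≤ 2 ^ p * (J * B) := by
      have h6 : (B + B * z) ^ p ≤ (2 * B) ^ p :=
        Real.rpow_le_rpow (by positivity) (by nlinarith) hp0.le
      rw [Real.mul_rpow (by norm_num) hB] at h6
      have h7 : B ^ p ≤ J * B := by
        rw [rpow_eq_sub_one_mul p (by linarith) B hB]
        exact mul_le_mul_of_nonneg_right (hle B hB hAB) hB
      have h8 : (2 : ℝ) ^ p * B ^ p ≤ 2 ^ p * (J * B) :=
        mul_le_mul_of_nonneg_left h7 (by linarith)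
      linarith
    have h9 : p / (4 * 2 ^ p) * (B + B * z) ^ p ≤ p / 4 * (J * B) := by
      have h10 : p / (4 * 2 ^ p) * (B + B * z) ^ p ≤ p / (4 * 2 ^ p) * (2 ^ p * (J * B)) :=
        mul_le_mul_of_nonneg_left h5 (by positivity)
      have h11 : p / (4 * 2 ^ p) * ((2 : ℝ) ^ p * (J * B)) = p / 4 * (J * B) := by
        have : (2 : ℝ) ^ p ≠ 0 := by linarith
        field_simp
      linarith
    have h12 : (lam * |e|) ^ p = lam ^ p * |e| ^ p := Real.mul_rpow hlam0 (abs_nonneg e)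
    rw [h12] at h3
    nlinarith
  · rw [← hw00]
    have h1 : A + B * (1 + z) + 0 * e = (A + B) + B * z := by ring
    rw [h1, abs_of_nonneg (by positivity)]
    have h2 := hbasic (A + B) (by linarith) hAB
    have h3 : 0 ≤ p / 4 * (J * B) := by positivity
    linarith

lemma core3 (p : ℝ) (hp : 2 ≤ p) (θ : ℝ) (hθ : 0 < θ) (Δ dM w e lam : ℝ) (hΔ : 0 ≤ Δ)
    (hdM : 0 ≤ dM) (hw0 : 0 ≤ w) (hw : w ≤ lam) (hwM : 0 < w → dM = Δ) :
    -(Δ ^ (p - 1) * w * e) ≤ θ * (Δ ^ (p - 1) * dM) + θ ^ (1 - p) * lam ^ p * |e| ^ p := by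
  have hJ0 : 0 ≤ Δ ^ (p - 1) := Real.rpow_nonneg hΔ _
  have hlam0 : 0 ≤ lam := hw0.trans hw
  rcases hw0.lt_or_eq with hwpos | hw00
  · rw [hwM hwpos]
    have h1 := young_cases p (by linarith) θ hθ Δ (lam * |e|) hΔ (by positivity)
    rw [Real.mul_rpow hlam0 (abs_nonneg e)] at h1
    have h2 : Δ ^ (p - 1) * Δ = Δ ^ p := (rpow_eq_sub_one_mul p (by linarith) Δ hΔ).symm
    have h3 : -(Δ ^ (p - 1) * w * e) ≤ Δ ^ (p - 1) * (lam * |e|) := by
      have h4 : -(w * e) ≤ lam * |e| := by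
        have h5 : -(w * e) ≤ w * |e| := by
          have := neg_abs_le e
          nlinarith
        have h6 := mul_le_mul_of_nonneg_right hw (abs_nonneg e)
        linarith
      have := mul_le_mul_of_nonneg_left h4 hJ0
      linarith
    rw [h2]
    linarith
  · rw [← hw00]
    have : 0 ≤ θ * (Δ ^ (p - 1) * dM) + θ ^ (1 - p) * lam ^ p * |e| ^ p := by positivity
    simpa using this


lemma trunc_facts (s lo lam a b : ℝ) (hlo : lo = s - lam) (hlam : 0 < lam) (hab : a ≤ b) :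
    0 ≤ min b lo - min a lo ∧ 0 ≤ max (min b s) lo - max (min a s) lo ∧
    (min b s - min a s = (min b lo - min a lo) + (max (min b s) lo - max (min a s) lo)) ∧
    (min b lo - min a lo) + (max (min b s) lo - max (min a s) lo) ≤ b - a ∧
    0 ≤ max (min a s) lo - lo ∧ max (min a s) lo - lo ≤ lam ∧
    (0 < max (min a s) lo - lo → min b lo - min a lo = 0) ∧
    (0 < max (min a s) lo - lo → max b lo - max a lo = b - a) ∧
    0 ≤ max b lo - max a lo := by
  subst hlo
  refine ⟨?_, ?_, ?_, ?_, ?_, ?_, ?_, ?_, ?_⟩ <;>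
    simp only [min_def, max_def] <;> split_ifs <;> intros <;> linarith

lemma key_arith (p b K θ Kθ κ γ s lam lo N L Eh : ℝ) (hp : 2 ≤ p) (hb : 1 ≤ b) (hθ0 : 0 ≤ θ)
    (hKθ0 : 0 ≤ Kθ) (hκ0 : 0 ≤ κ) (hγ0 : 0 ≤ γ) (hlam0 : 0 ≤ lam) (hL0 : 0 ≤ L)
    (hlam : 4 * (1 - s) ≤ lam) (h1lo : 1 - lo ≤ 5 / 4 * lam) (hbθ : b * θ = p / 5)
    (hlow : κ * (1 + p * (lam - (1 - s))) ≤ Eh)
    (hS1 : Eh ≤ κ * s + (b - 1) * N + p / 4 * (κ * lam) + K * (L * lam) * γ)
    (hN1 : N ≤ θ * (κ * (1 - lo)) + Kθ * (L * lam) * γ) :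
    p / 4 * (κ * lam) ≤ (b * Kθ + K) * (L * γ) * lam := by
  have e1 : (b - 1) * N ≤ (b - 1) * (θ * (κ * (1 - lo)) + Kθ * (L * lam) * γ) :=
    mul_le_mul_of_nonneg_left hN1 (by linarith)
  have e2 : θ * (κ * (1 - lo)) ≤ θ * (κ * (5 / 4 * lam)) :=
    mul_le_mul_of_nonneg_left (mul_le_mul_of_nonneg_left h1lo hκ0) hθ0
  have e6 : (b - 1) * (θ * (κ * (1 - lo))) ≤ (b - 1) * (θ * (κ * (5 / 4 * lam))) :=
    mul_le_mul_of_nonneg_left e2 (by linarith)
  have e3 : (b - 1) * (θ * (κ * (5 / 4 * lam))) ≤ b * (θ * (κ * (5 / 4 * lam))) :=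
    mul_le_mul_of_nonneg_right (by linarith) (by positivity)
  have e4 : b * (θ * (κ * (5 / 4 * lam))) = p / 4 * (κ * lam) := by
    calc b * (θ * (κ * (5 / 4 * lam))) = (b * θ) * (κ * (5 / 4 * lam)) := by ring
      _ = p / 4 * (κ * lam) := by rw [hbθ]; ring
  have e5 : (b - 1) * (Kθ * (L * lam) * γ) ≤ b * (Kθ * (L * lam) * γ) :=
    mul_le_mul_of_nonneg_right (by linarith) (by positivity)
  have e9 : (b - 1) * N ≤ p / 4 * (κ * lam) + b * (Kθ * (L * lam) * γ) := by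
    have : (b - 1) * (θ * (κ * (1 - lo)) + Kθ * (L * lam) * γ) =
        (b - 1) * (θ * (κ * (1 - lo))) + (b - 1) * (Kθ * (L * lam) * γ) := by ring
    linarith
  have hY : κ * (1 - s) ≤ κ * lam / 4 := by
    have := mul_le_mul_of_nonneg_left hlam hκ0
    linarith
  have e7 : (p - 1) * (κ * (1 - s)) ≤ (p - 1) * (κ * lam / 4) :=
    mul_le_mul_of_nonneg_left hY (by linarith)
  have e8 : 0 ≤ κ * lam := by positivity
  have a1 : κ * (1 + p * (lam - (1 - s))) = κ + p * (κ * lam) - p * (κ * (1 - s)) := by ring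
  have a2 : κ * s = κ - κ * (1 - s) := by ring
  have a3 : (p - 1) * (κ * (1 - s)) = p * (κ * (1 - s)) - κ * (1 - s) := by ring
  have a4 : (p - 1) * (κ * lam / 4) = p * (κ * lam) / 4 - κ * lam / 4 := by ring
  have a5 : (b * Kθ + K) * (L * γ) * lam = b * (Kθ * (L * lam) * γ) + K * (L * lam) * γ := by ring
  have a6 : p / 4 * (κ * lam) = p * (κ * lam) / 4 := by ring
  rw [a1, a2] at *
  rw [a3, a4] at e7
  rw [a5, a6]
  rw [a6] at hS1 e9
  linarith


theorem key_lemma (p : ℝ) (hp : 2 ≤ p) (c : V → V → ℝ) (hc0 : ∀ u v, 0 ≤ c u v)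
    (hcs : ∀ u v, c u v = c v u) (x x' y : V) (f : V → ℝ) (hf : IsPotential p c x x' f)
    (hy : ∀ h : V → ℝ, energy p c f * |h y - h x'| ^ p ≤ energy p c h)
    (ψ : V → ℝ) (hψ0 : ∀ v, 0 ≤ ψ v) (hψ1 : ∀ v, ψ v ≤ 1) (hψx : ψ x = 0) (hψy : ψ y = 1)
    (lam : ℝ) (hlam0 : 0 < lam) (hlam1 : lam ≤ 4 / 5) (hlam : 4 * (1 - f y) ≤ lam) :
    energy p c f ≤ keyConst p * lam ^ (p - 1) * energy p c ψ := by
  classical
  have hp0 : 0 < p := by linarith
  have hp1 : 1 < p := by linarith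
  have hb : 1 + p ≤ (2 : ℝ) ^ p := two_rpow_ge p (by linarith)
  set b : ℝ := 2 ^ p with hbdef
  have hb0 : 0 < b := by linarith
  set K : ℝ := (1 + 1 / (p / (4 * b ^ 2))) ^ p with hK
  have hK0 : 0 ≤ K := by positivity
  set θ : ℝ := p / (5 * b) with hθ
  have hθ0 : 0 < θ := by positivity
  set Kθ : ℝ := θ ^ (1 - p) with hKθ
  have hKθ0 : 0 ≤ Kθ := by positivity
  set κ : ℝ := energy p c f with hκ
  set γ : ℝ := energy p c ψ with hγ
  have hκ0 : 0 ≤ κ := energy_nonneg p c hc0 f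
  have hγ0 : 0 ≤ γ := energy_nonneg p c hc0 ψ
  set s : ℝ := f y with hs
  have hs1 : s ≤ 1 := hf.le_one y
  set lo : ℝ := s - lam with hlo
  have hlo0 : 0 ≤ lo := by rw [hlo]; linarith
  set F : V → ℝ := fun v => min (f v) s with hF
  set W : V → ℝ := fun v => max (min (f v) s) lo with hW
  set M : V → ℝ := fun v => max (f v) lo with hM
  set h : V → ℝ := fun v => F v + ψ v * (W v - lo) with hh
  set g₂ : V → ℝ := fun v => (1 - ψ v) * (W v - lo) with hg₂
  set j : V → V → ℝ := fun u v => c u v * (|f u - f v| ^ (p - 2) * (f u - f v)) with hj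
  have hjanti : ∀ u v, j v u = -(j u v) := by
    intro u v
    simp only [hj]
    rw [hcs v u, abs_sub_comm (f v) (f u)]
    ring
  have hjor : ∀ u v, f v ≤ f u → j u v = c u v * (f u - f v) ^ (p - 1) := by
    intro u v huv
    simp only [hj]
    rw [abs_rpow_sub_two_mul p hp1 _ (by linarith)]
  set ψh : V → V → ℝ := fun u v => if f v ≤ f u then ψ u else ψ v with hψh
  set ωc : V → V → ℝ := fun u v => if f v ≤ f u then W v - lo else W u - lo with hωc
  -- oriented pointwise estimates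
  have hP1o : ∀ u v, f v ≤ f u → c u v * |h u - h v| ^ p ≤
      j u v * (F u - F v) + (b - 1) * (j u v * (W u - W v) * ψ u) + p / 4 * (j u v * (W u - W v))
        + K * lam ^ p * (c u v * |ψ u - ψ v| ^ p) := by
    intro u v huv
    obtain ⟨t1, t2, t3, t4, t5, t6, t7, -, -⟩ := trunc_facts s lo lam (f v) (f u) hlo hlam0 huv
    have hcore := core1 p hp (f u - f v) (min (f u) lo - min (f v) lo) (W u - W v) (ψ u)
      (W v - lo) (ψ u - ψ v) lam t1 t2 t4 (hψ0 u) (hψ1 u) t5 t6 t7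
    have hrew : h u - h v = (min (f u) lo - min (f v) lo) + (W u - W v) * (1 + ψ u)
        + (W v - lo) * (ψ u - ψ v) := by
      simp only [hh, hF]
      have : min (f u) s - min (f v) s = (min (f u) lo - min (f v) lo) + (W u - W v) := t3
      linear_combination this
    have hFW : F u - F v = (min (f u) lo - min (f v) lo) + (W u - W v) := t3
    rw [hrew, hjor u v huv, hFW]
    have := mul_le_mul_of_nonneg_left hcore (hc0 u v)
    calc _ ≤ _ := this
      _ = _ := by ring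
  have hP3o : ∀ u v, f v ≤ f u → -(j u v * (W v - lo) * (ψ u - ψ v)) ≤
      θ * (j u v * (M u - M v)) + Kθ * lam ^ p * (c u v * |ψ u - ψ v| ^ p) := by
    intro u v huv
    obtain ⟨-, -, -, -, t5, t6, -, t8, t9⟩ := trunc_facts s lo lam (f v) (f u) hlo hlam0 huv
    have hcore := core3 p hp θ hθ0 (f u - f v) (M u - M v) (W v - lo) (ψ u - ψ v) lam
      (by linarith) t9 t5 t6 t8
    rw [hjor u v huv]
    have := mul_le_mul_of_nonneg_left hcore (hc0 u v)
    calc _ = c u v * -((f u - f v) ^ (p - 1) * (W v - lo) * (ψ u - ψ v)) := by ring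
      _ ≤ _ := this
      _ = _ := by ring
  -- pointwise estimates for all ordered pairs
  have hP1 : ∀ u v, c u v * |h u - h v| ^ p ≤
      j u v * (F u - F v) + (b - 1) * (j u v * (W u - W v) * ψh u v)
        + p / 4 * (j u v * (W u - W v)) + K * lam ^ p * (c u v * |ψ u - ψ v| ^ p) := by
    intro u v
    by_cases huv : f v ≤ f u
    · simp only [hψh, if_pos huv]
      exact hP1o u v huv
    · simp only [hψh, if_neg huv]
      have := hP1o v u (le_of_lt (not_le.mp huv))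
      rw [hjanti u v, hcs v u, abs_sub_comm (h v) (h u), abs_sub_comm (ψ v) (ψ u)] at this
      calc _ ≤ _ := this
        _ = _ := by ring
  have hP3 : ∀ u v, -(j u v * ωc u v * (ψ u - ψ v)) ≤
      θ * (j u v * (M u - M v)) + Kθ * lam ^ p * (c u v * |ψ u - ψ v| ^ p) := by
    intro u v
    by_cases huv : f v ≤ f u
    · simp only [hωc, if_pos huv]
      exact hP3o u v huv
    · simp only [hωc, if_neg huv]
      have := hP3o v u (le_of_lt (not_le.mp huv))
      rw [hjanti u v, hcs v u, abs_sub_comm (ψ v) (ψ u)] at this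
      calc _ = _ := by ring
        _ ≤ _ := this
        _ = _ := by ring
  have hP2 : ∀ u v, j u v * (g₂ u - g₂ v) =
      j u v * (W u - W v) - j u v * (W u - W v) * ψh u v - j u v * ωc u v * (ψ u - ψ v) := by
    intro u v
    simp only [hg₂, hψh, hωc]
    split_ifs <;> ring
  -- the sums
  set N : ℝ := ∑ u, ∑ v, j u v * (W u - W v) * ψh u v with hN
  set R : ℝ := ∑ u, ∑ v, j u v * ωc u v * (ψ u - ψ v) with hR
  have hflux : ∀ g : V → ℝ, fluxPair p c f g = ∑ u, ∑ v, j u v * (g u - g v) := fun g => rfl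
  have hS1 : energy p c h ≤ fluxPair p c f F + (b - 1) * N + p / 4 * fluxPair p c f W
      + K * lam ^ p * γ := by
    rw [hflux, hflux, hN, hγ]
    unfold energy
    simp only [mul_sum, ← sum_add_distrib]
    exact sum_le_sum fun u _ => sum_le_sum fun v _ => hP1 u v
  have hS2 : fluxPair p c f g₂ = fluxPair p c f W - N - R := by
    rw [hflux, hflux, hN, hR]
    simp only [← sum_sub_distrib]
    exact sum_congr rfl fun u _ => sum_congr rfl fun v _ => hP2 u v
  have hS3 : -R ≤ θ * fluxPair p c f M + Kθ * lam ^ p * γ := by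
    rw [hflux, hR, hγ]
    unfold energy
    simp only [mul_sum, ← sum_add_distrib, ← sum_neg_distrib]
    exact sum_le_sum fun u _ => sum_le_sum fun v _ => hP3 u v
  -- values of the Euler equation
  have hs0 : 0 ≤ s := hf.nonneg y
  have hEF : fluxPair p c f F = κ * s := by
    rw [hf.euler F]
    simp only [hF, hf.top, hf.bot]
    rw [min_eq_right hs1, min_eq_left hs0, sub_zero]
  have hlos : lo ≤ s := by rw [hlo]; linarith
  have hEW : fluxPair p c f W = κ * lam := by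
    rw [hf.euler W]
    simp only [hW, hf.top, hf.bot]
    rw [min_eq_right hs1, min_eq_left hs0, max_eq_left hlos, max_eq_right hlo0, hlo]
    ring
  have hEM : fluxPair p c f M = κ * (1 - lo) := by
    rw [hf.euler M]
    simp only [hM, hf.top, hf.bot]
    rw [max_eq_left (hlos.trans hs1), max_eq_right hlo0]
  have hEg : fluxPair p c f g₂ = κ * lam := by
    rw [hf.euler g₂]
    simp only [hg₂, hW, hf.top, hf.bot, hψx]
    rw [min_eq_right hs1, min_eq_left hs0, max_eq_left hlos, max_eq_right hlo0, hlo]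
    ring
  have hNR : N = -R := by
    rw [hEg, hEW] at hS2
    linarith
  -- the test function in the extremality hypothesis
  have hhy : h y - h x' = s + lam := by
    simp only [hh, hF, hW, hf.bot, hψy]
    rw [← hs, min_self, min_eq_left hs0, max_eq_left hlos, max_eq_right hlo0, hlo]
    ring
  have hlow : κ * (1 + p * (lam - (1 - s))) ≤ energy p c h := by
    have h1 := hy h
    rw [hhy, abs_of_nonneg (by linarith)] at h1
    have h2 := one_add_mul_self_le_rpow_one_add (s := lam - (1 - s)) (by linarith)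
      (show (1 : ℝ) ≤ p by linarith)
    have h3 : 1 + (lam - (1 - s)) = s + lam := by ring
    rw [h3] at h2
    exact (mul_le_mul_of_nonneg_left h2 hκ0).trans h1
  -- arithmetic
  have hN1 : N ≤ θ * (κ * (1 - lo)) + Kθ * lam ^ p * γ := by
    rw [hNR, ← hEM]; exact hS3
  have hlamp : lam ^ p = lam ^ (p - 1) * lam := rpow_eq_sub_one_mul p hp1 lam hlam0.le
  have hG0 : 0 ≤ lam ^ (p - 1) * γ := by positivity
  have h1lo : 1 - lo ≤ 5 / 4 * lam := by rw [hlo]; linarith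
  have hbθ : b * θ = p / 5 := by rw [hθ]; field_simp
  have hmain : p / 4 * (κ * lam) ≤ (b * Kθ + K) * (lam ^ (p - 1) * γ) * lam := by
    rw [hEF, hEW, hlamp] at hS1
    rw [hlamp] at hN1
    exact key_arith p b K θ Kθ κ γ s lam lo N (lam ^ (p - 1)) (energy p c h) hp (by linarith) hθ0.le
      hKθ0 hκ0 hγ0 hlam0.le (by positivity) hlam h1lo hbθ hlow hS1 hN1
  have hfin : p / 4 * κ ≤ (b * Kθ + K) * (lam ^ (p - 1) * γ) := by
    have : p / 4 * κ * lam ≤ (b * Kθ + K) * (lam ^ (p - 1) * γ) * lam := by linarith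
    exact le_of_mul_le_mul_right this hlam0
  have hconst : keyConst p = 4 / p * (b * Kθ + K) := rfl
  rw [hconst]
  calc κ = 4 / p * (p / 4 * κ) := by field_simp
    _ ≤ 4 / p * ((b * Kθ + K) * (lam ^ (p - 1) * γ)) :=
        mul_le_mul_of_nonneg_left hfin (by positivity)
    _ = 4 / p * (b * Kθ + K) * lam ^ (p - 1) * γ := by ring

lemma keyConst_nonneg (p : ℝ) (hp : 2 ≤ p) : 0 ≤ keyConst p := by
  unfold keyConst
  positivity

lemma keyConst2_nonneg (p : ℝ) (hp : 2 ≤ p) : 0 ≤ keyConst2 p := by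
  unfold keyConst2
  have := keyConst_nonneg p hp
  positivity

end Vale.Agent.Lib.P249
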