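import Mathlib
import Vale.Agent.Lib.P249.Energy
import Vale.Agent.Lib.P249.KeyLemma

/-!
# Corollary of the key lemma, for arbitrary test functions
-/

namespace Vale.Agent.Lib.P249

open Finset

variable {V : Type*} [Fintype V]

/-- The normalised form of the corollary: test functions with values in `[0,1]`. -/
theorem key_cor_unit (p : ℝ) (hp : 2 ≤ p) (c : V → V → ℝ) (hc0 : ∀ u v, 0 ≤ c u v)
    (hcs : ∀ u v, c u v = c v u) (x x' y : V) (f : V → ℝ) (hf : IsPotential p c x x' f)
    (hκ : 0 < energy p c f)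
    (hy : ∀ h : V → ℝ, energy p c f * |h y - h x'| ^ p ≤ energy p c h)
    (ψ : V → ℝ) (hψ0 : ∀ v, 0 ≤ ψ v) (hψ1 : ∀ v, ψ v ≤ 1) (hψx : ψ x = 0) (hψy : ψ y = 1) :
    energy p c f ≤ keyConst2 p * (1 - f y) ^ (p - 1) * energy p c ψ := by
  have hp0 : 0 ≤ p := by linarith
  have hp1 : 0 ≤ p - 1 := by linarith
  have hK := keyConst_nonneg p hp
  have hE : 0 ≤ energy p c ψ := energy_nonneg p c hc0 ψ
  have ha0 : 0 ≤ 1 - f y := by linarith [hf.le_one y]
  have hapow : 0 ≤ (1 - f y) ^ (p - 1) := Real.rpow_nonneg ha0 _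
  rcases lt_or_ge (1 / 5 : ℝ) (1 - f y) with hbig | hsmall
  · -- large `a`
    have hhalf : energy p c f * (1 / 2 : ℝ) ^ p ≤ energy p c ψ := by
      rcases le_total (1 / 2 : ℝ) (ψ x') with h | h
      · have h1 := hf.min ψ
        rw [hψx] at h1
        refine le_trans (mul_le_mul_of_nonneg_left ?_ hκ.le) h1
        refine Real.rpow_le_rpow (by norm_num) ?_ hp0
        rw [zero_sub, abs_neg, abs_of_nonneg (hψ0 x')]
        exact h
      · have h1 := hy ψ
        rw [hψy] at h1
        refine le_trans (mul_le_mul_of_nonneg_left ?_ hκ.le) h1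
        refine Real.rpow_le_rpow (by norm_num) ?_ hp0
        rw [abs_of_nonneg (by linarith)]
        linarith
    have h2 : energy p c f ≤ 2 ^ p * energy p c ψ := by
      have h2p : (0 : ℝ) < 2 ^ p := Real.rpow_pos_of_pos (by norm_num) p
      have : (1 / 2 : ℝ) ^ p = (2 ^ p)⁻¹ := by
        rw [one_div, Real.inv_rpow (by norm_num)]
      rw [this] at hhalf
      calc energy p c f = 2 ^ p * (energy p c f * (2 ^ p)⁻¹) := by field_simp
        _ ≤ 2 ^ p * energy p c ψ := mul_le_mul_of_nonneg_left hhalf h2p.le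
    have h3 : (1 : ℝ) ≤ 5 ^ (p - 1) * (1 - f y) ^ (p - 1) := by
      rw [← Real.mul_rpow (by norm_num) ha0]
      exact Real.one_le_rpow (by linarith) hp1
    have h2p : (0 : ℝ) ≤ 2 ^ p := Real.rpow_nonneg (by norm_num) p
    have h4p : (0 : ℝ) ≤ 4 ^ (p - 1) := Real.rpow_nonneg (by norm_num) _
    calc energy p c f ≤ 2 ^ p * energy p c ψ := h2
      _ = (2 ^ p * energy p c ψ) * 1 := by ring
      _ ≤ (2 ^ p * energy p c ψ) * (5 ^ (p - 1) * (1 - f y) ^ (p - 1)) :=
          mul_le_mul_of_nonneg_left h3 (mul_nonneg h2p hE)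
      _ = (2 ^ p * 5 ^ (p - 1)) * ((1 - f y) ^ (p - 1) * energy p c ψ) := by ring
      _ ≤ keyConst2 p * ((1 - f y) ^ (p - 1) * energy p c ψ) := by
          refine mul_le_mul_of_nonneg_right ?_ (mul_nonneg hapow hE)
          unfold keyConst2
          have := mul_nonneg hK h4p
          linarith
      _ = _ := by ring
  · rcases ha0.eq_or_lt with hzero | hpos
    · -- `a = 0` is impossible
      exfalso
      set M := keyConst p * energy p c ψ with hM
      have hM0 : 0 ≤ M := mul_nonneg hK hE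
      set lam := min (4 / 5 : ℝ) (energy p c f / (2 * (M + 1))) with hlam
      have hlam0 : 0 < lam := lt_min (by norm_num) (by positivity)
      have hlam1 : lam ≤ 4 / 5 := min_le_left _ _
      have h1 := key_lemma p hp c hc0 hcs x x' y f hf hy ψ hψ0 hψ1 hψx hψy lam hlam0 hlam1
        (by rw [← hzero]; linarith)
      have h2 : lam ^ (p - 1) ≤ lam := by
        have := Real.rpow_le_rpow_of_exponent_ge hlam0 (by linarith : lam ≤ 1)
          (by linarith : (1 : ℝ) ≤ p - 1)
        rwa [Real.rpow_one] at this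
      have h3 : energy p c f ≤ M * lam := by
        calc energy p c f ≤ keyConst p * lam ^ (p - 1) * energy p c ψ := h1
          _ = M * lam ^ (p - 1) := by rw [hM]; ring
          _ ≤ M * lam := mul_le_mul_of_nonneg_left h2 hM0
      have h4 : M * lam ≤ M * (energy p c f / (2 * (M + 1))) :=
        mul_le_mul_of_nonneg_left (min_le_right _ _) hM0
      have h5 : M * (energy p c f / (2 * (M + 1))) < energy p c f := by
        rw [mul_div_assoc', div_lt_iff₀ (by positivity)]
        nlinarith
      linarith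
    · -- small positive `a`
      have h1 := key_lemma p hp c hc0 hcs x x' y f hf hy ψ hψ0 hψ1 hψx hψy (4 * (1 - f y))
        (by linarith) (by linarith) le_rfl
      rw [Real.mul_rpow (by norm_num) ha0] at h1
      have h25 : (0 : ℝ) ≤ 2 ^ p * 5 ^ (p - 1) :=
        mul_nonneg (Real.rpow_nonneg (by norm_num) _) (Real.rpow_nonneg (by norm_num) _)
      calc energy p c f ≤ keyConst p * (4 ^ (p - 1) * (1 - f y) ^ (p - 1)) * energy p c ψ := h1
        _ = (keyConst p * 4 ^ (p - 1)) * ((1 - f y) ^ (p - 1) * energy p c ψ) := by ring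
        _ ≤ keyConst2 p * ((1 - f y) ^ (p - 1) * energy p c ψ) := by
            refine mul_le_mul_of_nonneg_right ?_ (mul_nonneg hapow hE)
            unfold keyConst2
            linarith
        _ = _ := by ring

theorem key_cor (p : ℝ) (hp : 2 ≤ p) (c : V → V → ℝ) (hc0 : ∀ u v, 0 ≤ c u v)
    (hcs : ∀ u v, c u v = c v u) (x x' y : V) (f : V → ℝ) (hf : IsPotential p c x x' f)
    (hκ : 0 < energy p c f)
    (hy : ∀ h : V → ℝ, energy p c f * |h y - h x'| ^ p ≤ energy p c h) (g : V → ℝ) :
    energy p c f * |g x - g y| ^ p ≤ keyConst2 p * (1 - f y) ^ (p - 1) * energy p c g := by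
  have hp0 : 0 ≤ p := by linarith
  have hK2 := keyConst2_nonneg p hp
  have hEg : 0 ≤ energy p c g := energy_nonneg p c hc0 g
  have ha0 : 0 ≤ 1 - f y := by linarith [hf.le_one y]
  have hapow : 0 ≤ (1 - f y) ^ (p - 1) := Real.rpow_nonneg ha0 _
  rcases eq_or_ne (g x) (g y) with heq | hne
  · rw [heq, sub_self, abs_zero, Real.zero_rpow (by linarith : p ≠ 0), mul_zero]
    positivity
  · have hd : g y - g x ≠ 0 := sub_ne_zero.2 hne.symm
    set d := g y - g x with hdd
    set gt : V → ℝ := fun v => d⁻¹ * g v + (-(d⁻¹ * g x)) with hgt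
    set ψ : V → ℝ := fun v => max 0 (min 1 (gt v)) with hψ
    have hgx : gt x = 0 := by simp only [hgt]; ring
    have hgy : gt y = 1 := by
      simp only [hgt]
      have : d⁻¹ * g y + -(d⁻¹ * g x) = d⁻¹ * d := by rw [hdd]; ring
      rw [this, inv_mul_cancel₀ hd]
    have h1 := key_cor_unit p hp c hc0 hcs x x' y f hf hκ hy ψ
      (fun v => le_max_left _ _) (fun v => max_le zero_le_one (min_le_left _ _))
      (by simp [hψ, hgx]) (by simp [hψ, hgy])
    have h2 : energy p c ψ ≤ energy p c gt := by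
      refine energy_comp_le p hp0 c hc0 gt ψ ?_
      intro u v
      calc |max 0 (min 1 (gt u)) - max 0 (min 1 (gt v))| ≤ |min 1 (gt u) - min 1 (gt v)| := by
            rw [max_comm 0, max_comm 0]
            exact abs_max_sub_max_le_abs _ _ _
        _ ≤ |gt u - gt v| := by
            have := abs_min_sub_min_le_max 1 (gt u) 1 (gt v)
            simpa using this
    have h3 : energy p c gt = (|d| ^ p)⁻¹ * energy p c g := by
      rw [hgt, energy_affine, abs_inv, Real.inv_rpow (abs_nonneg _)]
    have hpos : 0 < |d| ^ p := Real.rpow_pos_of_pos (abs_pos.2 hd) p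
    have habs : |g x - g y| = |d| := by rw [hdd, abs_sub_comm]
    rw [habs]
    calc energy p c f * |d| ^ p
        ≤ (keyConst2 p * (1 - f y) ^ (p - 1) * energy p c ψ) * |d| ^ p :=
          mul_le_mul_of_nonneg_right h1 hpos.le
      _ ≤ (keyConst2 p * (1 - f y) ^ (p - 1) * ((|d| ^ p)⁻¹ * energy p c g)) * |d| ^ p := by
          refine mul_le_mul_of_nonneg_right ?_ hpos.le
          refine mul_le_mul_of_nonneg_left (h2.trans h3.le) (mul_nonneg hK2 hapow)
      _ = keyConst2 p * (1 - f y) ^ (p - 1) * energy p c g := by field_simp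

end Vale.Agent.Lib.P249
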