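import Mathlib
import Vale.Agent.Lib.P249.Energy

/-!
# Existence of equilibrium potentials (minimisers of the `p`-energy) and their Euler equation
-/

namespace Vale.Agent.Lib.P249

open Finset

variable {V : Type*} [Fintype V]

lemma continuous_energy (p : ℝ) (hp : 0 ≤ p) (c : V → V → ℝ) :
    Continuous (fun g : V → ℝ => energy p c g) := by
  unfold energy
  refine continuous_finsetSum _ fun u _ => continuous_finsetSum _ fun v _ => ?_
  refine continuous_const.mul ?_
  refine Continuous.rpow_const ?_ (fun _ => Or.inr hp)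
  exact ((continuous_apply u).sub (continuous_apply v)).abs

lemma fluxPair_add (p : ℝ) (c : V → V → ℝ) (f g h : V → ℝ) :
    fluxPair p c f (fun v => g v + h v) = fluxPair p c f g + fluxPair p c f h := by
  unfold fluxPair
  rw [← sum_add_distrib]
  apply sum_congr rfl; intro u _
  rw [← sum_add_distrib]
  apply sum_congr rfl; intro v _
  ring

lemma fluxPair_smul (p : ℝ) (c : V → V → ℝ) (f g : V → ℝ) (a : ℝ) :
    fluxPair p c f (fun v => a * g v) = a * fluxPair p c f g := by
  unfold fluxPair
  rw [mul_sum]
  apply sum_congr rfl; intro u _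
  rw [mul_sum]
  apply sum_congr rfl; intro v _
  ring

lemma fluxPair_const (p : ℝ) (c : V → V → ℝ) (f : V → ℝ) (a : ℝ) :
    fluxPair p c f (fun _ => a) = 0 := by
  unfold fluxPair
  simp

lemma abs_rpow_sub_two_mul_pot (p : ℝ) (hp : 2 ≤ p) (a : ℝ) :
    |a| ^ (p - 2) * a * a = |a| ^ p := by
  rcases eq_or_ne a 0 with rfl | ha
  · rw [abs_zero, Real.zero_rpow (by linarith : p ≠ 0)]; simp
  · have h1 : a * a = |a| ^ (2 : ℝ) := by
      rw [Real.rpow_two, sq_abs]; ring
    rw [mul_assoc, h1, ← Real.rpow_add (abs_pos.2 ha)]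
    congr 1; ring

lemma fluxPair_self (p : ℝ) (hp : 2 ≤ p) (c : V → V → ℝ) (f : V → ℝ) :
    fluxPair p c f f = energy p c f := by
  unfold fluxPair energy
  apply sum_congr rfl; intro u _
  apply sum_congr rfl; intro v _
  rw [mul_assoc, abs_rpow_sub_two_mul_pot p hp]

lemma hasDerivAt_energy_line (p : ℝ) (hp : 2 ≤ p) (c : V → V → ℝ) (f e : V → ℝ) :
    HasDerivAt (fun t : ℝ => energy p c (fun v => f v + t * e v)) (p * fluxPair p c f e) 0 := by
  unfold energy fluxPair
  rw [mul_sum]
  refine HasDerivAt.fun_sum fun u _ => ?_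
  rw [mul_sum]
  refine HasDerivAt.fun_sum fun v _ => ?_
  have h1 : HasDerivAt (fun t : ℝ => (f u + t * e u) - (f v + t * e v)) (e u - e v) 0 := by
    have := ((hasDerivAt_id (0 : ℝ)).mul_const (e u - e v)).const_add (f u - f v)
    simp only [id, one_mul] at this
    have heq : (fun t : ℝ => (f u + t * e u) - (f v + t * e v))
        = fun t : ℝ => f u - f v + t * (e u - e v) := by
      funext t; ring
    rw [heq]
    exact this
  have h2 := hasDerivAt_abs_rpow ((f u + 0 * e u) - (f v + 0 * e v)) (p := p) (by linarith)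
  have h3 := (h2.comp (0 : ℝ) h1).const_mul (c u v)
  have hval : p * (c u v * (|f u - f v| ^ (p - 2) * (f u - f v)) * (e u - e v))
      = c u v * (p * |f u + 0 * e u - (f v + 0 * e v)| ^ (p - 2)
        * (f u + 0 * e u - (f v + 0 * e v)) * (e u - e v)) := by
    simp only [zero_mul, add_zero]
    ring
  rw [hval]
  exact h3

theorem exists_potential (p : ℝ) (hp : 2 ≤ p) (c : V → V → ℝ) (hc0 : ∀ u v, 0 ≤ c u v)
    (x x' : V) (hx : x ≠ x') : ∃ f : V → ℝ, IsPotential p c x x' f := by
  classical
  have hp0 : 0 ≤ p := by linarith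
  set K : Set (V → ℝ) := (Set.univ.pi fun _ => Set.Icc (0 : ℝ) 1) ∩ {g | g x = 1 ∧ g x' = 0}
    with hK
  have hKc : IsCompact K := by
    refine (isCompact_univ_pi fun _ => isCompact_Icc).inter_right ?_
    exact (isClosed_eq (continuous_apply x) continuous_const).inter
      (isClosed_eq (continuous_apply x') continuous_const)
  have hKne : K.Nonempty := by
    refine ⟨fun v => if v = x then 1 else 0, ?_, ?_, ?_⟩
    · intro v _
      by_cases h : v = x <;> simp [h]
    · simp
    · simp [hx.symm]
  obtain ⟨f, hfK, hfmin⟩ := hKc.exists_isMinOn hKne (continuous_energy p hp0 c).continuousOn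
  have hf01 : ∀ v, f v ∈ Set.Icc (0 : ℝ) 1 := fun v => hfK.1 v (Set.mem_univ v)
  have hfx : f x = 1 := hfK.2.1
  have hfx' : f x' = 0 := hfK.2.2
  -- global minimality
  have hglob : ∀ g : V → ℝ, g x = 1 → g x' = 0 → energy p c f ≤ energy p c g := by
    intro g hgx hgx'
    have hmem : (fun v => max 0 (min 1 (g v))) ∈ K := by
      refine ⟨?_, ?_, ?_⟩
      · intro v _
        exact ⟨le_max_left _ _, max_le zero_le_one (min_le_left _ _)⟩
      · simp [hgx]
      · simp [hgx']
    refine (hfmin hmem).trans (energy_comp_le p hp0 c hc0 g _ ?_)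
    intro u v
    calc |max 0 (min 1 (g u)) - max 0 (min 1 (g v))| ≤ |min 1 (g u) - min 1 (g v)| := by
          rw [max_comm 0, max_comm 0]
          exact abs_max_sub_max_le_abs _ _ _
      _ ≤ |g u - g v| := by
          have := abs_min_sub_min_le_max 1 (g u) 1 (g v)
          simpa using this
  refine ⟨f, hfx, hfx', fun v => (hf01 v).1, fun v => (hf01 v).2, ?_, ?_⟩
  · intro h
    rcases eq_or_ne (h x) (h x') with heq | hne
    · rw [heq, sub_self, abs_zero, Real.zero_rpow (by linarith : p ≠ 0), mul_zero]
      exact energy_nonneg p c hc0 h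
    · have hd : h x - h x' ≠ 0 := sub_ne_zero.2 hne
      have h1 := hglob (fun v => (h x - h x')⁻¹ * h v + (-(h x - h x')⁻¹ * h x')) ?_ ?_
      · rw [energy_affine, abs_inv, Real.inv_rpow (abs_nonneg _)] at h1
        have hpos : 0 < |h x - h x'| ^ p := Real.rpow_pos_of_pos (abs_pos.2 hd) p
        calc energy p c f * |h x - h x'| ^ p
            ≤ ((|h x - h x'| ^ p)⁻¹ * energy p c h) * |h x - h x'| ^ p :=
              mul_le_mul_of_nonneg_right h1 hpos.le
          _ = energy p c h := by field_simp
      · field_simp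
        ring
      · ring
  · intro g
    set e : V → ℝ := fun v => g v + (-(g x') + (-(g x - g x')) * f v) with he
    have hex : e x = 0 := by simp only [he, hfx]; ring
    have hex' : e x' = 0 := by simp only [he, hfx']; ring
    have hmin : IsLocalMin (fun t : ℝ => energy p c (fun v => f v + t * e v)) 0 := by
      refine Filter.Eventually.of_forall fun t => ?_
      have := hglob (fun v => f v + t * e v) (by simp [hex, hfx]) (by simp [hex', hfx'])
      simpa using this
    have hz := hmin.hasDerivAt_eq_zero (hasDerivAt_energy_line p hp c f e)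
    have hz' : fluxPair p c f e = 0 := by
      rcases mul_eq_zero.1 hz with h | h
      · linarith
      · exact h
    have hsplit : fluxPair p c f e
        = fluxPair p c f g + (0 + (-(g x - g x')) * energy p c f) := by
      rw [he, fluxPair_add, fluxPair_add, fluxPair_const, fluxPair_smul, fluxPair_self p hp]
    rw [hsplit] at hz'
    linarith

end Vale.Agent.Lib.P249
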