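import Mathlib
import Vale.Agent.Lib.P249.Energy
import Vale.Agent.Lib.P249.Potential
import Vale.Agent.Lib.P249.KeyCor

/-!
# A vertex of bounded total sensitivity
-/

namespace Vale.Agent.Lib.P249

open Finset

variable {V : Type*} [Fintype V] [DecidableEq V]

/-- `|a|^(p-2) * a = a^(p-1)` for `a ≥ 0`. -/
lemma abs_rpow_mul_self_of_nonneg (p : ℝ) (hp : 2 ≤ p) (a : ℝ) (ha : 0 ≤ a) :
    |a| ^ (p - 2) * a = a ^ (p - 1) := by
  rcases ha.eq_or_lt with h | h
  · rw [← h, mul_zero, Real.zero_rpow (by linarith)]
  · rw [abs_of_pos h]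
    have : a ^ (p - 1) = a ^ (p - 2) * a ^ (1 : ℝ) := by
      rw [← Real.rpow_add h]; congr 1; ring
    rw [this, Real.rpow_one]

/-- The flux of `f` out of the vertex `x`, computed with the indicator of `x`. -/
lemma fluxPair_indicator (p : ℝ) (c : V → V → ℝ) (hcs : ∀ u v, c u v = c v u) (f : V → ℝ)
    (x : V) :
    fluxPair p c f (fun u => if u = x then 1 else 0)
      = 2 * ∑ v, c x v * (|f x - f v| ^ (p - 2) * (f x - f v)) := by
  unfold fluxPair
  have h1 : ∀ u v : V, c u v * (|f u - f v| ^ (p - 2) * (f u - f v)) *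
      ((if u = x then (1 : ℝ) else 0) - (if v = x then (1 : ℝ) else 0))
      = (if u = x then c u v * (|f u - f v| ^ (p - 2) * (f u - f v)) else 0)
        - (if v = x then c u v * (|f u - f v| ^ (p - 2) * (f u - f v)) else 0) := by
    intro u v
    split_ifs <;> ring
  simp only [h1, sum_sub_distrib]
  have h2 : ∑ u, ∑ v, (if u = x then c u v * (|f u - f v| ^ (p - 2) * (f u - f v)) else 0)
      = ∑ v, c x v * (|f x - f v| ^ (p - 2) * (f x - f v)) := by
    rw [sum_comm]
    refine sum_congr rfl fun v _ => ?_
    rw [sum_ite_eq' univ x]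
    simp
  have h3 : ∑ u, ∑ v, (if v = x then c u v * (|f u - f v| ^ (p - 2) * (f u - f v)) else 0)
      = - ∑ v, c x v * (|f x - f v| ^ (p - 2) * (f x - f v)) := by
    rw [← sum_neg_distrib]
    refine sum_congr rfl fun u _ => ?_
    rw [sum_ite_eq' univ x]
    simp only [mem_univ, if_true]
    rw [hcs u x, abs_sub_comm (f u) (f x)]
    ring
  rw [h2, h3]
  ring

/-- The energy of the indicator of an isolated vertex vanishes. -/
lemma energy_indicator_of_isolated (p : ℝ) (hp : 2 ≤ p) (c : V → V → ℝ)
    (hcs : ∀ u v, c u v = c v u) (x : V) (hx : ∀ v, v ≠ x → c x v = 0) :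
    energy p c (fun u => if u = x then (1 : ℝ) else 0) = 0 := by
  unfold energy
  refine sum_eq_zero fun u _ => sum_eq_zero fun v _ => ?_
  have hp0 : p ≠ 0 := by linarith
  by_cases hu : u = x
  · by_cases hv : v = x
    · simp [hu, hv, Real.zero_rpow hp0]
    · rw [hu, hx v hv, zero_mul]
  · by_cases hv : v = x
    · rw [hv, hcs u x, hx u hu, zero_mul]
    · simp [hu, hv, Real.zero_rpow hp0]

/-- A vertex all of whose edges have bounded total sensitivity. -/
theorem exists_good_vertex (p : ℝ) (hp : 2 ≤ p) (c : V → V → ℝ) (hc0 : ∀ u v, 0 ≤ c u v)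
    (hcs : ∀ u v, c u v = c v u) (hne : ∃ u v, u ≠ v ∧ c u v ≠ 0) :
    ∃ x : V, (∃ v, v ≠ x ∧ c x v ≠ 0) ∧ ∃ P : V → ℝ, (∀ v, 0 ≤ P v) ∧
      2 * ∑ v, P v ≤ keyConst2 p ∧
      ∀ (v : V) (g : V → ℝ), c x v * |g x - g v| ^ p ≤ P v * energy p c g := by
  classical
  have hp0 : p ≠ 0 := by linarith
  obtain ⟨x', v0, hne0, hc00⟩ := hne
  -- potentials towards `x'`
  have hexF : ∀ z : V, ∃ F : V → ℝ, z ≠ x' → IsPotential p c z x' F := by
    intro z
    by_cases hz : z = x'
    · exact ⟨0, fun h => absurd hz h⟩
    · obtain ⟨F, hF⟩ := exists_potential p hp c hc0 z x' hz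
      exact ⟨F, fun _ => hF⟩
  choose F hF using hexF
  set kap : V → ℝ := fun z => energy p c (F z) with hkap
  have hkap0 : ∀ z, 0 ≤ kap z := fun z => energy_nonneg p c hc0 _
  have hv0 : v0 ≠ x' := fun h => hne0 h.symm
  have hkv0 : 0 < kap v0 := by
    have h1 := term_le_energy p c hc0 (F v0) v0 x'
    rw [(hF v0 hv0).top, (hF v0 hv0).bot] at h1
    have h2 : 0 < c v0 x' := by
      rw [hcs v0 x']
      exact lt_of_le_of_ne (hc0 _ _) (Ne.symm hc00)
    simp only [sub_zero, abs_one, Real.one_rpow, mul_one] at h1
    exact lt_of_lt_of_le h2 h1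
  set S : Finset V := univ.filter (fun z => z ≠ x' ∧ 0 < kap z) with hS
  have hSne : S.Nonempty := ⟨v0, by simp [hS, hv0, hkv0]⟩
  obtain ⟨x, hxS, hxmin⟩ := S.exists_min_image kap hSne
  have hxx' : x ≠ x' := (mem_filter.mp hxS).2.1
  have hκ : 0 < kap x := (mem_filter.mp hxS).2.2
  set f : V → ℝ := F x with hfdef
  have hf : IsPotential p c x x' f := hF x hxx'
  set κ : ℝ := energy p c f with hκdef
  have hκ' : 0 < κ := hκ
  refine ⟨x, ?_, ?_⟩
  · -- `x` has a neighbour
    by_contra hcon
    push Not at hcon
    have hE := energy_indicator_of_isolated p hp c hcs x hcon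
    have h1 := hf.min (fun u => if u = x then (1 : ℝ) else 0)
    rw [hE] at h1
    simp only [if_true, if_neg hxx'.symm, sub_zero, abs_one, Real.one_rpow, mul_one] at h1
    exact absurd h1 (not_le.mpr hκ')
  · have h1f : ∀ v, 0 ≤ 1 - f v := fun v => by linarith [hf.le_one v]
    have hK := keyConst2_nonneg p hp
    refine ⟨fun v => keyConst2 p * (c x v * (1 - f v) ^ (p - 1)) / κ, ?_, ?_, ?_⟩
    · intro v
      have := Real.rpow_nonneg (h1f v) (p - 1)
      have := hc0 x v
      positivity
    · -- flux identity
      have h1 := hf.euler (fun u => if u = x then (1 : ℝ) else 0)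
      rw [fluxPair_indicator p c hcs f x] at h1
      simp only [if_true, if_neg hxx'.symm, sub_zero, mul_one] at h1
      have h2 : ∑ v, c x v * (|f x - f v| ^ (p - 2) * (f x - f v))
          = ∑ v, c x v * (1 - f v) ^ (p - 1) := by
        refine sum_congr rfl fun v _ => ?_
        rw [hf.top, abs_rpow_mul_self_of_nonneg p hp _ (h1f v)]
      rw [h2] at h1
      have h3 : ∑ v, keyConst2 p * (c x v * (1 - f v) ^ (p - 1)) / κ
          = keyConst2 p * (∑ v, c x v * (1 - f v) ^ (p - 1)) / κ := by
        rw [mul_sum, sum_div]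
      rw [h3]
      have h4 : 2 * (keyConst2 p * (∑ v, c x v * (1 - f v) ^ (p - 1)) / κ)
          = keyConst2 p * (2 * ∑ v, c x v * (1 - f v) ^ (p - 1)) / κ := by ring
      rw [h4, h1, mul_div_assoc, div_self hκ'.ne', mul_one]
    · intro v g
      have hEg := energy_nonneg p c hc0 g
      rcases (hc0 x v).eq_or_lt with hc | hc
      · simp only [← hc, zero_mul, mul_zero, zero_div, le_refl]
      · have hy : ∀ h : V → ℝ, energy p c f * |h v - h x'| ^ p ≤ energy p c h := by
          intro h
          by_cases hvx : v = x'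
          · rw [hvx, sub_self, abs_zero, Real.zero_rpow hp0, mul_zero]
            exact energy_nonneg p c hc0 h
          · have hkv : 0 < kap v := by
              by_contra hcon
              have hz : kap v = 0 := le_antisymm (not_lt.mp hcon) (hkap0 v)
              have t1 := term_le_energy p c hc0 (F v) x v
              have hz' : energy p c (F v) = 0 := hz
              rw [hz', (hF v hvx).top] at t1
              have t2 : |F v x - 1| ^ p ≤ 0 := by
                by_contra hh
                push Not at hh
                have := mul_pos hc hh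
                linarith
              have t3 : |F v x - 1| ^ p = 0 :=
                le_antisymm t2 (Real.rpow_nonneg (abs_nonneg _) _)
              have t4 : |F v x - 1| = 0 := by
                rcases (Real.rpow_eq_zero_iff_of_nonneg (abs_nonneg _)).mp t3 with ⟨h, _⟩
                exact h
              have t5 : F v x = 1 := by
                have := abs_eq_zero.mp t4
                linarith
              have t6 := hf.min (F v)
              rw [hz', t5, (hF v hvx).bot] at t6
              simp only [sub_zero, abs_one, Real.one_rpow, mul_one] at t6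
              exact absurd t6 (not_le.mpr hκ')
            have hvS : v ∈ S := by simp [hS, hvx, hkv]
            have hle : κ ≤ kap v := hxmin v hvS
            calc energy p c f * |h v - h x'| ^ p ≤ kap v * |h v - h x'| ^ p :=
                  mul_le_mul_of_nonneg_right hle (Real.rpow_nonneg (abs_nonneg _) _)
              _ ≤ energy p c h := (hF v hvx).min h
        have hkc := key_cor p hp c hc0 hcs x x' v f hf hκ' hy g
        have e1 : c x v * |g x - g v| ^ p = (c x v / κ) * (κ * |g x - g v| ^ p) := by
          field_simp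
        have e2 : keyConst2 p * (c x v * (1 - f v) ^ (p - 1)) / κ * energy p c g
            = (c x v / κ) * (keyConst2 p * (1 - f v) ^ (p - 1) * energy p c g) := by
          ring
        rw [e1, e2]
        exact mul_le_mul_of_nonneg_left hkc (div_nonneg hc.le hκ'.le)

end Vale.Agent.Lib.P249
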