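import Mathlib
import Vale.Agent.Lib.P249.GoodVertex

/-!
# The total `ℓ_p` sensitivity of a weighted graph on `n` vertices is `O_p(n)`
-/

namespace Vale.Agent.Lib.P249

open Finset

variable {V : Type*} [Fintype V] [DecidableEq V]

open Classical in
/-- The induction behind the Foster type bound, on the number of non-isolated vertices. -/
theorem sensitivity_bound_aux (p : ℝ) (hp : 2 ≤ p) (k : ℕ) :
    ∀ c : V → V → ℝ, (∀ u v, 0 ≤ c u v) → (∀ u v, c u v = c v u) →
      (univ.filter (fun u => ∃ v, v ≠ u ∧ c u v ≠ 0)).card ≤ k →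
    ∃ P : V → V → ℝ, (∀ u v, 0 ≤ P u v) ∧
      (∀ (u v : V) (g : V → ℝ), c u v * |g u - g v| ^ p ≤ P u v * energy p c g) ∧
      ∑ u, ∑ v, P u v ≤ keyConst2 p * k := by
  have hp0 : p ≠ 0 := by linarith
  have hK := keyConst2_nonneg p hp
  -- the case without edges
  have hbase : ∀ (k : ℕ) (c : V → V → ℝ), (¬ ∃ u v, u ≠ v ∧ c u v ≠ 0) →
      ∃ P : V → V → ℝ, (∀ u v, 0 ≤ P u v) ∧
      (∀ (u v : V) (g : V → ℝ), c u v * |g u - g v| ^ p ≤ P u v * energy p c g) ∧
      ∑ u, ∑ v, P u v ≤ keyConst2 p * k := by
    intro k c hno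
    refine ⟨fun _ _ => 0, fun _ _ => le_rfl, ?_, ?_⟩
    · intro u v g
      rw [zero_mul]
      by_cases huv : u = v
      · subst huv
        rw [sub_self, abs_zero, Real.zero_rpow hp0, mul_zero]
      · have : c u v = 0 := by
          by_contra h
          exact hno ⟨u, v, huv, h⟩
        rw [this, zero_mul]
    · simp only [sum_const_zero]
      positivity
  induction k with
  | zero =>
    intro c hc0 hcs hcard
    apply hbase 0 c
    rintro ⟨u, v, huv, hc⟩
    have hmem : u ∈ univ.filter (fun u => ∃ v, v ≠ u ∧ c u v ≠ 0) := by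
      simp only [mem_filter, mem_univ, true_and]
      exact ⟨v, huv.symm, hc⟩
    have : 0 < (univ.filter (fun u => ∃ v, v ≠ u ∧ c u v ≠ 0)).card := card_pos.2 ⟨u, hmem⟩
    omega
  | succ k ih =>
    intro c hc0 hcs hcard
    by_cases hne : ∃ u v, u ≠ v ∧ c u v ≠ 0
    swap
    · exact hbase (k + 1) c hne
    obtain ⟨x, ⟨v0, hv0, hcx⟩, Px, hPx0, hPxsum, hPxb⟩ := exists_good_vertex p hp c hc0 hcs hne
    set c' : V → V → ℝ := fun u v => if u = x ∨ v = x then 0 else c u v with hc'
    have hc'0 : ∀ u v, 0 ≤ c' u v := by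
      intro u v
      simp only [hc']
      split_ifs
      · exact le_rfl
      · exact hc0 u v
    have hc's : ∀ u v, c' u v = c' v u := by
      intro u v
      simp only [hc']
      rw [hcs u v]
      simp only [or_comm]
    have hc'le : ∀ u v, c' u v ≤ c u v := by
      intro u v
      simp only [hc']
      split_ifs
      · exact hc0 u v
      · exact le_rfl
    have hsub : univ.filter (fun u => ∃ v, v ≠ u ∧ c' u v ≠ 0)
        ⊆ (univ.filter (fun u => ∃ v, v ≠ u ∧ c u v ≠ 0)).erase x := by
      intro u hu
      simp only [mem_filter, mem_univ, true_and] at hu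
      obtain ⟨v, hvu, hcv⟩ := hu
      simp only [hc'] at hcv
      have hnot : ¬ (u = x ∨ v = x) := by
        intro h
        rw [if_pos h] at hcv
        exact hcv rfl
      rw [if_neg hnot] at hcv
      simp only [mem_erase, mem_filter, mem_univ, true_and]
      exact ⟨fun h => hnot (Or.inl h), v, hvu, hcv⟩
    have hxmem : x ∈ univ.filter (fun u => ∃ v, v ≠ u ∧ c u v ≠ 0) := by
      simp only [mem_filter, mem_univ, true_and]
      exact ⟨v0, hv0, hcx⟩
    have hcard' : (univ.filter (fun u => ∃ v, v ≠ u ∧ c' u v ≠ 0)).card ≤ k := by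
      have h1 := card_le_card hsub
      rw [card_erase_of_mem hxmem] at h1
      omega
    obtain ⟨P', hP'0, hP'b, hP'sum⟩ := ih c' hc'0 hc's hcard'
    refine ⟨fun u v => if u = x then Px v else if v = x then Px u else P' u v, ?_, ?_, ?_⟩
    · intro u v
      dsimp only
      split_ifs
      · exact hPx0 v
      · exact hPx0 u
      · exact hP'0 u v
    · intro u v g
      dsimp only
      split_ifs with h1 h2
      · subst h1
        exact hPxb v g
      · subst h2
        rw [hcs u v, abs_sub_comm]
        exact hPxb u g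
      · have hcc : c u v = c' u v := by
          simp only [hc']
          rw [if_neg (by tauto)]
        rw [hcc]
        exact (hP'b u v g).trans
          (mul_le_mul_of_nonneg_left (energy_mono p c' c hc'le g) (hP'0 u v))
    · have hpt : ∀ u v, (if u = x then Px v else if v = x then Px u else P' u v)
          ≤ P' u v + (if u = x then Px v else 0) + (if v = x then Px u else 0) := by
        intro u v
        have a1 := hP'0 u v
        have a2 := hPx0 u
        have a3 := hPx0 v
        split_ifs <;> linarith
      calc ∑ u, ∑ v, (if u = x then Px v else if v = x then Px u else P' u v)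
          ≤ ∑ u, ∑ v, (P' u v + (if u = x then Px v else 0) + (if v = x then Px u else 0)) :=
            sum_le_sum fun u _ => sum_le_sum fun v _ => hpt u v
        _ = ∑ u, ∑ v, P' u v + ∑ v, Px v + ∑ u, Px u := by
            simp only [sum_add_distrib]
            congr 1
            · congr 1
              rw [sum_comm]
              simp
            · simp
        _ ≤ keyConst2 p * k + keyConst2 p := by linarith
        _ = keyConst2 p * ((k + 1 : ℕ) : ℝ) := by push_cast; ring

/-- A Foster type bound for `p`-energies. -/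
theorem exists_sensitivity_bound (p : ℝ) (hp : 2 ≤ p) (c : V → V → ℝ) (hc0 : ∀ u v, 0 ≤ c u v)
    (hcs : ∀ u v, c u v = c v u) :
    ∃ P : V → V → ℝ, (∀ u v, 0 ≤ P u v) ∧
      (∀ (u v : V) (g : V → ℝ), c u v * |g u - g v| ^ p ≤ P u v * energy p c g) ∧
      ∑ u, ∑ v, P u v ≤ keyConst2 p * Fintype.card V := by
  classical
  exact sensitivity_bound_aux p hp (Fintype.card V) c hc0 hcs (card_le_univ _)

end Vale.Agent.Lib.P249
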