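import Mathlib
import Vale.Agent.Lib.P249.Foster

/-!
# Total sensitivity of the coordinates of an `n`-point subset of `ℓ_p^m` is `O_p(n)`
-/

namespace Vale.Agent.Lib.P249

open Finset

theorem total_sensitivity (p : ℝ) (hp : 2 ≤ p) (n m : ℕ) (x : Fin n → Fin m → ℝ) :
    ∃ s : Fin m → ℝ, (∀ k, 0 ≤ s k) ∧
      (∀ i j k, |x i k - x j k| ^ p ≤ s k * ∑ k', |x i k' - x j k'| ^ p) ∧
      ∑ k, s k ≤ 2 * keyConst2 p * n := by
  classical
  rcases Nat.eq_zero_or_pos n with hn | hn
  · subst hn
    exact ⟨fun _ => 0, fun _ => le_rfl, fun i => i.elim0, by simp⟩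
  have : Nonempty (Fin n × Fin n) := ⟨(⟨0, hn⟩, ⟨0, hn⟩)⟩
  -- abbreviations
  set t : Fin n → Fin n → Fin m → ℝ := fun i j k => |x i k - x j k| ^ p with ht
  have ht0 : ∀ i j k, 0 ≤ t i j k := fun i j k => Real.rpow_nonneg (abs_nonneg _) _
  have hts : ∀ i j k, t i j k = t j i k := fun i j k => by
    simp only [ht]; rw [abs_sub_comm]
  set D : Fin n → Fin n → ℝ := fun i j => ∑ k, t i j k with hD
  have hD0 : ∀ i j, 0 ≤ D i j := fun i j => sum_nonneg fun k _ => ht0 i j k
  have hDs : ∀ i j, D i j = D j i := fun i j => sum_congr rfl fun k _ => hts i j k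
  set r : Fin m → Fin n × Fin n → ℝ := fun k q => t q.1 q.2 k / D q.1 q.2 with hr
  have hr0 : ∀ k q, 0 ≤ r k q := fun k q => div_nonneg (ht0 _ _ _) (hD0 _ _)
  have hex : ∀ k, ∃ q : Fin n × Fin n, ∀ q', r k q' ≤ r k q := by
    intro k
    obtain ⟨q, _, hq⟩ := Finset.exists_max_image (univ : Finset (Fin n × Fin n)) (r k)
      univ_nonempty
    exact ⟨q, fun q' => hq q' (mem_univ _)⟩
  choose e he using hex
  set s : Fin m → ℝ := fun k => r k (e k) with hs
  have hs0 : ∀ k, 0 ≤ s k := fun k => hr0 _ _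
  have hbound : ∀ i j k, t i j k ≤ s k * D i j := by
    intro i j k
    rcases (hD0 i j).eq_or_lt with h0 | hpos
    · have : t i j k = 0 :=
        (sum_eq_zero_iff_of_nonneg (fun k _ => ht0 i j k)).mp h0.symm k (mem_univ k)
      rw [this, ← h0, mul_zero]
    · have h1 : r k (i, j) ≤ s k := he k (i, j)
      have h2 : t i j k = r k (i, j) * D i j := by
        simp only [hr]; field_simp
      rw [h2]
      exact mul_le_mul_of_nonneg_right h1 hpos.le
  refine ⟨s, hs0, hbound, ?_⟩
  -- weights of the pairs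
  set w : Fin n × Fin n → ℝ := fun q => ∑ k ∈ univ.filter (fun k => e k = q), s k with hw
  have hw0 : ∀ q, 0 ≤ w q := fun q => sum_nonneg fun k _ => hs0 k
  set τ : ℝ := ∑ k, s k with hτ
  have hτw : ∑ q, w q = τ := by
    simp only [hw, hτ]
    exact Finset.sum_fiberwise (univ : Finset (Fin m)) e s
  set c : Fin n → Fin n → ℝ := fun u v => (w (u, v) + w (v, u)) / D u v with hc
  have hc0 : ∀ u v, 0 ≤ c u v := fun u v => div_nonneg (add_nonneg (hw0 _) (hw0 _)) (hD0 _ _)
  have hcs : ∀ u v, c u v = c v u := fun u v => by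
    simp only [hc]; rw [hDs u v, add_comm]
  obtain ⟨P, hP0, hPb, hPs⟩ := exists_sensitivity_bound p hp c hc0 hcs
  set E : Fin m → ℝ := fun k => energy p c (fun i => x i k) with hE
  have hE0 : ∀ k, 0 ≤ E k := fun k => energy_nonneg p c hc0 _
  -- total energy
  have hEsum : ∑ k, E k ≤ 2 * τ := by
    have h1 : ∑ k, E k = ∑ u, ∑ v, c u v * D u v := by
      simp only [hE, energy]
      rw [sum_comm]
      refine sum_congr rfl fun u _ => ?_
      rw [sum_comm]
      refine sum_congr rfl fun v _ => ?_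
      rw [hD, mul_sum]
    have h2 : ∀ u v, c u v * D u v ≤ w (u, v) + w (v, u) := by
      intro u v
      rcases (hD0 u v).eq_or_lt with h0 | hpos
      · rw [← h0, mul_zero]; exact add_nonneg (hw0 _) (hw0 _)
      · simp only [hc]; rw [div_mul_cancel₀ _ hpos.ne']
    have h3 : ∑ u, ∑ v, w (u, v) = τ := by
      rw [← hτw, Fintype.sum_prod_type]
    have h4 : ∑ u, ∑ v, w (v, u) = τ := by
      rw [← hτw, Fintype.sum_prod_type_right]
    calc ∑ k, E k = ∑ u, ∑ v, c u v * D u v := h1
      _ ≤ ∑ u, ∑ v, (w (u, v) + w (v, u)) :=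
          sum_le_sum fun u _ => sum_le_sum fun v _ => h2 u v
      _ = 2 * τ := by
          simp only [sum_add_distrib]
          rw [h3, h4]; ring
  -- the main inequality for one coordinate
  have hone : ∀ k, w (e k) * s k ≤ P (e k).1 (e k).2 * E k := by
    intro k
    have h1 : w (e k) * s k ≤ c (e k).1 (e k).2 * t (e k).1 (e k).2 k := by
      rcases (hD0 (e k).1 (e k).2).eq_or_lt with h0 | hpos
      · have : s k = 0 := by
          simp only [hs, hr]; rw [← h0, div_zero]
        rw [this, mul_zero]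
        exact mul_nonneg (hc0 _ _) (ht0 _ _ _)
      · have h2 : c (e k).1 (e k).2 * t (e k).1 (e k).2 k
            = (w ((e k).1, (e k).2) + w ((e k).2, (e k).1)) * s k := by
          simp only [hc, hs, hr]; ring
        rw [h2]
        refine mul_le_mul_of_nonneg_right ?_ (hs0 k)
        have : w (e k) = w ((e k).1, (e k).2) := rfl
        rw [this]
        linarith [hw0 ((e k).2, (e k).1)]
    exact h1.trans (hPb (e k).1 (e k).2 (fun i => x i k))
  set EE : Fin n × Fin n → ℝ := fun q => ∑ k ∈ univ.filter (fun k => e k = q), E k with hEE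
  have hEE0 : ∀ q, 0 ≤ EE q := fun q => sum_nonneg fun k _ => hE0 k
  have hEEsum : ∑ q, EE q = ∑ k, E k := by
    simp only [hEE]
    exact Finset.sum_fiberwise (univ : Finset (Fin m)) e E
  have hsq : ∀ q, w q * w q ≤ P q.1 q.2 * EE q := by
    intro q
    calc w q * w q = ∑ k ∈ univ.filter (fun k => e k = q), w q * s k := by
          rw [← mul_sum]
      _ ≤ ∑ k ∈ univ.filter (fun k => e k = q), P q.1 q.2 * E k := by
          refine sum_le_sum fun k hk => ?_
          have hk' : e k = q := (mem_filter.mp hk).2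
          have := hone k
          rwa [hk'] at this
      _ = P q.1 q.2 * EE q := by rw [← mul_sum]
  have hlin : ∀ q, w q ≤ P q.1 q.2 + EE q / 4 := by
    intro q
    by_contra hcon
    push Not at hcon
    have h1 := hsq q
    have h2 := hP0 q.1 q.2
    have h3 := hEE0 q
    nlinarith [sq_nonneg (P q.1 q.2 - EE q / 4), hw0 q]
  have hfin : τ ≤ keyConst2 p * n + (2 * τ) / 4 := by
    calc τ = ∑ q, w q := hτw.symm
      _ ≤ ∑ q : Fin n × Fin n, (P q.1 q.2 + EE q / 4) := sum_le_sum fun q _ => hlin q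
      _ = ∑ u, ∑ v, P u v + (∑ k, E k) / 4 := by
          rw [sum_add_distrib, ← sum_div, hEEsum, Fintype.sum_prod_type]
      _ ≤ keyConst2 p * n + (2 * τ) / 4 := by
          have : ∑ u, ∑ v, P u v ≤ keyConst2 p * n := by simpa using hPs
          linarith
  linarith

end Vale.Agent.Lib.P249
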