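import Mathlib
import Vale.Agent.Lib.P249.TotalSens
import Vale.Agent.Lib.P249.Sampling

/-!
# Dimension reduction in `ℓ_p`, `p ≥ 2`, with `O(n log n)` coordinates
-/

namespace Vale.Agent.Lib.P249

open Finset

/-- Dimension reduction by a linear map (weighted restriction to `d` coordinates). -/
theorem dim_reduction_linear2 (p : ℝ) (hp : 2 ≤ p) (n m d : ℕ)
    (ε : ℝ) (hε0 : 0 < ε) (hε1 : ε ≤ 1)
    (hd : 4 * (2 * keyConst2 p * n) * Real.log (2 * (n : ℝ) ^ 2) < ε ^ 2 * d)
    (x : Fin n → Fin m → ℝ) :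
    ∃ T : (Fin m → ℝ) →ₗ[ℝ] (Fin d → ℝ), ∀ i j,
      (1 - ε) * ∑ k, |x i k - x j k| ^ p ≤ ∑ r, |T (x i) r - T (x j) r| ^ p ∧
      ∑ r, |T (x i) r - T (x j) r| ^ p ≤ (1 + ε) * ∑ k, |x i k - x j k| ^ p := by
  classical
  have hp0 : 0 < p := by linarith
  have hpne : p ≠ 0 := hp0.ne'
  obtain ⟨s, hs0, hb, hStot⟩ := total_sensitivity p hp n m x
  have hbound : ∀ (q : Fin n × Fin n) (k : Fin m),
      |x q.1 k - x q.2 k| ^ p ≤ s k * ∑ k', |x q.1 k' - x q.2 k'| ^ p :=
    fun q k => hb q.1 q.2 k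
  rcases (sum_nonneg (fun k (_ : k ∈ univ) => hs0 k)).lt_or_eq with hSpos | hSzero
  · -- main case
    have hcond : 2 * (Fintype.card (Fin n × Fin n) : ℝ) *
        Real.exp (-(d * ε ^ 2 / (4 * ∑ k, s k))) < 1 := by
      rw [Fintype.card_prod, Fintype.card_fin]
      rcases Nat.eq_zero_or_pos n with hn | hn
      · subst hn; simp
      · have hn1 : (1 : ℝ) ≤ n := by exact_mod_cast hn
        have h2n : (1 : ℝ) < 2 * (n : ℝ) ^ 2 := by nlinarith
        have hlog : 0 < Real.log (2 * (n : ℝ) ^ 2) := Real.log_pos h2n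
        have hz : Real.log (2 * (n : ℝ) ^ 2) < d * ε ^ 2 / (4 * ∑ k, s k) := by
          rw [lt_div_iff₀ (by positivity)]
          calc Real.log (2 * (n : ℝ) ^ 2) * (4 * ∑ k, s k)
              ≤ Real.log (2 * (n : ℝ) ^ 2) * (4 * (2 * keyConst2 p * n)) := by
                apply mul_le_mul_of_nonneg_left _ hlog.le
                linarith
            _ = 4 * (2 * keyConst2 p * n) * Real.log (2 * (n : ℝ) ^ 2) := by ring
            _ < ε ^ 2 * d := hd
            _ = d * ε ^ 2 := by ring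
        have h5 : 2 * ((n * n : ℕ) : ℝ) = Real.exp (Real.log (2 * (n : ℝ) ^ 2)) := by
          rw [Real.exp_log (by positivity)]; push_cast; ring
        rw [h5, ← Real.exp_add, Real.exp_lt_one_iff]
        linarith
    obtain ⟨κ, c, hc0, hc⟩ := exists_weighted_subsample
      (fun (q : Fin n × Fin n) k => |x q.1 k - x q.2 k| ^ p) s
      (fun q k => by positivity) hs0 hbound hSpos ε hε0 hε1 d hcond
    refine ⟨LinearMap.pi (fun r => (c r ^ p⁻¹) • LinearMap.proj (κ r)), fun i j => ?_⟩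
    simp only [LinearMap.pi_apply, LinearMap.smul_apply, LinearMap.proj_apply, smul_eq_mul]
    have hy : ∀ r, |c r ^ p⁻¹ * x i (κ r) - c r ^ p⁻¹ * x j (κ r)| ^ p =
        c r * |x i (κ r) - x j (κ r)| ^ p := by
      intro r
      rw [← mul_sub, abs_mul, abs_of_nonneg (Real.rpow_nonneg (hc0 r) _),
        Real.mul_rpow (Real.rpow_nonneg (hc0 r) _) (abs_nonneg _),
        Real.rpow_inv_rpow (hc0 r) hpne]
    simp_rw [hy]
    exact hc (i, j)
  · -- all distances vanish
    have hsk : ∀ k, s k = 0 := by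
      intro k
      exact (sum_eq_zero_iff_of_nonneg (fun k _ => hs0 k)).mp hSzero.symm k (mem_univ k)
    have hzero : ∀ i j k, |x i k - x j k| ^ p = 0 := by
      intro i j k
      have := hbound (i, j) k
      rw [hsk k, zero_mul] at this
      exact le_antisymm this (by positivity)
    refine ⟨0, fun i j => ?_⟩
    simp [hzero, Real.zero_rpow hpne]

end Vale.Agent.Lib.P249
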